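import Vale.Agent.P340.Trans

namespace Vale.Agent.P340

open Tm

variable {S T : Type*}

/-- Products over a telescope. -/
def pis : List (Tm T) → Tm T → Tm T
  | [], X => X
  | A :: E, X => pis E (Tm.pi A X)

/-- A renaming lifted under `d` doubled binders. -/
def upn2 (f : ℕ → ℕ) : ℕ → ℕ → ℕ
  | 0 => f
  | d + 1 => up (up (upn2 f d))

/-- Roles in a translated context of length `d`. -/
def roles : ℕ → ℕ → Role
  | 0 => fun _ => .cst
  | d + 1 => upB (roles d)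

theorem roles_cst (d c : ℕ) : roles d (c + 2 * d) = .cst := by
  induction d with
  | zero => rfl
  | succ d ih =>
    show upB (roles d) (c + 2 * d + 2) = _
    simp [upB, ih, Role.mapThk]

theorem roles_noTok (d i : ℕ) : roles d i ≠ .tok := by
  induction d generalizing i with
  | zero => simp [roles]
  | succ d ih =>
    match i with
    | 0 => simp [roles, upB]
    | 1 => simp [roles, upB]
    | i + 2 =>
      show upB (roles d) (i + 2) ≠ _
      have := ih i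
      revert this
      simp only [upB]; cases roles d i <;> simp [Role.mapThk]

theorem renOK_nu (d : ℕ) : RenOK (roles d) (upT (roles d)) Nat.succ id := by
  intro i _
  show (roles d i).clear = _
  have := roles_noTok d i
  revert this
  cases roles d i <;> simp [Role.mapThk, Role.clear]

variable (φ : S → T)

theorem od_ren (f : ℕ → ℕ) (o : Tm T) (d : ℕ) :
    od (Tm.ren f o) d = Tm.ren (upn2 f d) (od o d) := by
  induction d with
  | zero => rfl
  | succ d ih => simp [od, upn2, ren_sh, ih]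

theorem pd_ren (f : ℕ → ℕ) (o : Tm T) (d : ℕ) :
    pd (Tm.ren f o) d = Tm.ren (upn2 f d) ∘ pd o d := by
  induction d with
  | zero => rfl
  | succ d ih =>
    funext n
    cases n
    · rfl
    · simp [pd, upD, upn2, ren_sh, ih]

theorem Dc_ren (f : ℕ → ℕ) (o : Tm T) (Γ : List (Tm S)) (M : Tm S) :
    Dc φ (Tm.ren f o) Γ M = Tm.ren (upn2 f Γ.length) (Dc φ o Γ M) := by
  simp [Dc, ren_D, od_ren, pd_ren]

theorem dE_length (o : Tm T) (Γ : List (Tm S)) : (dE φ o Γ).length = 2 * Γ.length := by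
  induction Γ with
  | nil => rfl
  | cons A Γ ih => simp [dE, ih]; omega

theorem pis_dE_ren (f : ℕ → ℕ) (o : Tm T) (Γ : List (Tm S)) (X : Tm T) :
    Tm.ren f (pis (dE φ o Γ) X) =
      pis (dE φ (Tm.ren f o) Γ) (Tm.ren (upn2 f Γ.length) X) := by
  induction Γ generalizing X with
  | nil => rfl
  | cons A Γ ih =>
    simp only [dE, pis, List.length_cons, upn2]
    rw [ih]
    simp [Tm.ren, ren_thT, od_ren, Dc_ren]

theorem od_eq_ren (o : Tm T) (d : ℕ) : od o d = Tm.ren (fun i => i + 2 * d) o := by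
  induction d with
  | zero => exact (ren_id o).symm
  | succ d ih => simp only [od, ih, sh, ren_ren]; rfl

variable {φ} {P : Spec S} {P' : Spec T}

theorem lookUnder {Δ : List (Tm T)} (o' : Tm T) {c : ℕ} {X : Tm T} (h : Look Δ c X)
    (Γ : List (Tm S)) :
    Look (dE φ o' Γ ++ Δ) (c + 2 * Γ.length) (Tm.ren (fun i => i + 2 * Γ.length) X) := by
  induction Γ with
  | nil => simpa [dE, show (fun i : ℕ => i) = id from rfl, ren_id] using h
  | cons A Γ ih =>
    have h2 := Look.succ (thT (od o' Γ.length) (Dc φ o' Γ A)) (Look.succ (Dc φ o' Γ A) ih)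
    simp only [sh, ren_ren] at h2
    exact h2

theorem pis_typ {Q : T → Prop} (hQ : ∀ s q, Q q → ∃ q', Q q' ∧ P'.rule s q q')
    {Δ : List (Tm T)} (E : List (Tm T)) : ∀ {X : Tm T} {q : T}, Q q →
      Typ P' (E ++ Δ) X (Tm.sort q) → ∃ q', Typ P' Δ (pis E X) (Tm.sort q') := by
  induction E with
  | nil => intro X q _ h; exact ⟨q, h⟩
  | cons A E ih =>
    intro X q hq h
    have hw := h.wf
    cases hw with
    | @cons _ _ s _ hA =>
      obtain ⟨q', hq', hr⟩ := hQ s q hq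
      exact ih hq' (.prod hA h hr)

theorem spine {Δ : List (Tm T)} (E : List (Tm T)) : ∀ {X : Tm T} {c : ℕ},
    Wf P' (E ++ Δ) → Look Δ c (pis E X) →
      ∃ Y, Typ P' (E ++ Δ) Y X ∧ ∀ ρ : ℕ → Role, ρ (c + E.length) = .cst → CSp ρ Y := by
  induction E with
  | nil => intro X c hw h; exact ⟨_, hw.varTyp h, fun ρ hρ => .var hρ⟩
  | cons A E ih =>
    intro X c hw h
    cases hw with
    | cons hw hA =>
      obtain ⟨Y, hY, hsp⟩ := ih hw h
      refine ⟨Tm.app (sh Y) (Tm.var 0), ?_, fun ρ hρ => .app _ ?_⟩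
      · have h' := Typ.appl (Typ.weak hY hA) (Typ.start hA)
        have e : inst (Tm.ren (up Nat.succ) X) (Tm.var 0) = X := by
          rw [inst, sub_ren]
          conv_rhs => rw [← sub_var X]
          apply sub_ext
          intro n; cases n <;> rfl
        rwa [e] at h'
      · have := (hsp (fun i => ρ (i + 1)) hρ).ren (ρ' := ρ) (f := Nat.succ) (g := id)
          (fun i _ => by cases ρ (i + 1) <;> simp [Role.mapThk])
        exact this

theorem spine_dE {Δ : List (Tm T)} {o' : Tm T} {Γ : List (Tm S)} {X : Tm T} {c : ℕ}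
    (hw : Wf P' (dE φ o' Γ ++ Δ)) (h : Look Δ c (pis (dE φ o' Γ) X)) :
    ∃ Y, Typ P' (dE φ o' Γ ++ Δ) Y X ∧ CSp (roles Γ.length) Y := by
  obtain ⟨Y, hY, hsp⟩ := spine (dE φ o' Γ) hw h
  exact ⟨Y, hY, hsp _ (by rw [dE_length]; exact roles_cst _ _)⟩

theorem Typ.appArrow {Γ : List (Tm T)} {F x a r : Tm T} (hF : Typ P' Γ F (Tm.pi a (sh r)))
    (hx : Typ P' Γ x a) : Typ P' Γ (Tm.app F x) r := by
  have := Typ.appl hF hx
  rwa [inst_sh] at this

theorem instTok {ρ : ℕ → Role} {b m : Tm T} {N : Tm S} {K : List (Option (Tm S))}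
    (hb : Sim (upT ρ) b (some N) [none]) (hm : Sim ρ m none K) :
    Sim ρ (inst b m) (some N) K := by
  have := hb.subst (ρ' := ρ) (τ := single m) (σ := Tm.var) (K₀ := K)
    ⟨fun i j hij => by
      match i with
      | 0 => exact absurd hij (by simp [upT])
      | i + 1 =>
        refine .inl ⟨i, j, rfl, ?_, rfl⟩
        revert hij; simp only [upT]; cases ρ i <;> simp [Role.clear],
    fun i hij => by
      match i with
      | 0 => exact absurd hij (by simp [upT])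
      | i + 1 =>
        refine ⟨i, rfl, ?_⟩
        revert hij; simp only [upT]; cases ρ i <;> simp [Role.clear],
    fun i hij => by
      match i with
      | 0 => exact hm
      | i + 1 => revert hij; simp only [upT]; cases ρ i <;> simp [Role.clear]⟩
  simpa [fl, flItem, sub_var, inst] using this

/-- The data provided by `MemoryMap`. -/
structure Data (P : Spec S) (P' : Spec T) (φ : S → T) where
  sO : T
  base : List (Tm T)
  o : Tm T
  Q : T → Prop
  ho : Typ P' base o (Tm.sort sO)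
  hax : ∀ s₁ s₂, P.ax s₁ s₂ → P'.ax (φ s₁) (φ s₂)
  hthk : ∀ s, ∃ t, P'.rule sO s t
  hdbl : ∀ s₁ s₂ s₃, P.rule s₁ s₂ s₃ →
    ∃ t u, P'.rule sO (φ s₁) t ∧ P'.rule t (φ s₂) u ∧ P'.rule (φ s₁) u (φ s₃)
  hQ0 : Q sO
  hQ : ∀ s q, Q q → ∃ q', Q q' ∧ P'.rule s q q'

variable (dd : Data P P' φ)

/-- `G` holds in every extension of the base context supplying finitely many typed variables. -/
def Built (G : List (Tm T) → (ℕ → ℕ) → Prop) : Prop :=
  ∃ L : List (Tm T), (∀ X ∈ L, ∃ k, Typ P' dd.base X (Tm.sort k)) ∧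
    ∀ Δ f, Wf P' Δ → RenTy f dd.base Δ → (∀ X ∈ L, ∃ c, Look Δ c (Tm.ren f X)) → G Δ f

variable {dd}

theorem Built.map {G G' : List (Tm T) → (ℕ → ℕ) → Prop} (h : Built dd G)
    (hG : ∀ Δ f, Wf P' Δ → RenTy f dd.base Δ → G Δ f → G' Δ f) : Built dd G' := by
  obtain ⟨L, h1, h2⟩ := h
  exact ⟨L, h1, fun Δ f a b c => hG Δ f a b (h2 Δ f a b c)⟩

theorem Built.both {G G' : List (Tm T) → (ℕ → ℕ) → Prop} (h : Built dd G) (h' : Built dd G') :
    Built dd fun Δ f => G Δ f ∧ G' Δ f := by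
  obtain ⟨L, h1, h2⟩ := h
  obtain ⟨L', h1', h2'⟩ := h'
  refine ⟨L ++ L', fun X hX => (List.mem_append.1 hX).elim (h1 X) (h1' X),
    fun Δ f a b c => ⟨?_, ?_⟩⟩
  · exact h2 Δ f a b fun X hX => c X (List.mem_append_left _ hX)
  · exact h2' Δ f a b fun X hX => c X (List.mem_append_right _ hX)

theorem Built.req {X : Tm T} {k : T} (h : Typ P' dd.base X (Tm.sort k)) :
    Built dd fun Δ f => ∃ c, Look Δ c (Tm.ren f X) :=
  ⟨[X], fun Y hY => by rw [List.mem_singleton.1 hY]; exact ⟨k, h⟩,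
    fun Δ f _ _ c => c X (by simp)⟩

theorem Built.reqPis {Γ : List (Tm S)} {X : Tm T} {q : T} (hq : dd.Q q)
    (h : Typ P' (dE φ dd.o Γ ++ dd.base) X (Tm.sort q)) :
    Built dd fun Δ f => ∃ c, Look Δ c
      (pis (dE φ (Tm.ren f dd.o) Γ) (Tm.ren (upn2 f Γ.length) X)) := by
  obtain ⟨q', hp⟩ := pis_typ dd.hQ _ hq h
  exact (Built.req hp).map fun Δ f _ _ ⟨c, hc⟩ => ⟨c, by rwa [pis_dE_ren] at hc⟩

theorem Data.oTyp {Δ : List (Tm T)} {f : ℕ → ℕ} (hΔ : Wf P' Δ) (hf : RenTy f dd.base Δ) :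
    Typ P' Δ (Tm.ren f dd.o) (Tm.sort dd.sO) := dd.ho.rename hΔ hf

theorem Data.dtyp {Δ : List (Tm T)} {o' : Tm T} (ho : Typ P' Δ o' (Tm.sort dd.sO))
    {Γ : List (Tm S)} {M B : Tm S} (h : Typ P Γ M B) :
    Typ P' (dE φ o' Γ ++ Δ) (Dc φ o' Γ M) (Dc φ o' Γ B) :=
  D_typ dd.hax dd.hthk dd.hdbl ho h

variable (dd)

/-- Goal: a padded translation of `M` of type `B`, parameterised by a memory token. -/
def LTG (Γ : List (Tm S)) (M B : Tm S) (Δ : List (Tm T)) (f : ℕ → ℕ) : Prop :=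
  ∃ t, Typ P' (od (Tm.ren f dd.o) Γ.length :: (dE φ (Tm.ren f dd.o) Γ ++ Δ)) t
      (sh (Dc φ (Tm.ren f dd.o) Γ B)) ∧
    Sim (upT (roles Γ.length)) t (some M) [none]

/-- Goal: a memory term retaining `M`. -/
def LOGG (Γ : List (Tm S)) (M : Tm S) (Δ : List (Tm T)) (f : ℕ → ℕ) : Prop :=
  ∃ e, Typ P' (dE φ (Tm.ren f dd.o) Γ ++ Δ) e (od (Tm.ren f dd.o) Γ.length) ∧
    Sim (roles Γ.length) e none [some M]

variable {dd}

/-- The context translated over an extension of the base. -/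
theorem renTy_dE {Δ : List (Tm T)} {f : ℕ → ℕ} (hf : RenTy f dd.base Δ)
    (Γ : List (Tm S)) :
    RenTy (upn2 f Γ.length) (dE φ dd.o Γ ++ dd.base) (dE φ (Tm.ren f dd.o) Γ ++ Δ) := by
  induction Γ with
  | nil => exact hf
  | cons A Γ ih =>
    have h := (ih.up (Dc φ dd.o Γ A)).up (thT (od dd.o Γ.length) (Dc φ dd.o Γ A))
    rw [ren_thT, ← od_ren, ← Dc_ren] at h
    exact h

/-- The absorber type. -/
def ellT (o : Tm T) (Γ : List (Tm S)) (a : Tm T) : Tm T :=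
  Tm.pi (Tm.pi (od o Γ.length) (sh a)) (sh (od o Γ.length))

/-- The type combining two memories. -/
def joinT (o : Tm T) (Γ : List (Tm S)) : Tm T :=
  Tm.pi (od o Γ.length) (sh (Tm.pi (od o Γ.length) (sh (od o Γ.length))))

/-- Functions from the two copies of a variable to memory. -/
def pairT (o : Tm T) (φ : S → T) (Γ : List (Tm S)) (A : Tm S) : Tm T :=
  Tm.pi (Dc φ o Γ A) (Tm.pi (thT (od o Γ.length) (Dc φ o Γ A)) (od o (Γ.length + 1)))

/-- The type of the combinator retaining a product. -/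
def mpiT (o : Tm T) (φ : S → T) (Γ : List (Tm S)) (A : Tm S) : Tm T :=
  Tm.pi (od o Γ.length) (sh (Tm.pi (pairT o φ Γ A) (sh (od o Γ.length))))

theorem Built.ell {Γ : List (Tm S)} {C : Tm S} {s : S} (h : Typ P Γ C (Tm.sort s)) :
    Built dd fun Δ f => ∃ X, Typ P' (dE φ (Tm.ren f dd.o) Γ ++ Δ) X
      (ellT (Tm.ren f dd.o) Γ (Dc φ (Tm.ren f dd.o) Γ C)) ∧ CSp (roles Γ.length) X := by
  have hC := dd.dtyp dd.ho h
  rw [Dc_sort] at hC
  have hod := od_typ dd.ho Γ hC.wf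
  obtain ⟨t, ht⟩ := dd.hthk (φ s)
  have hT := hod.arrow hC ht
  obtain ⟨q, hq, hr⟩ := dd.hQ t dd.sO dd.hQ0
  refine (Built.reqPis hq (hT.arrow hod hr)).map fun Δ f hΔ hf ⟨c, hc⟩ => spine_dE
    ((dd.dtyp (dd.oTyp hΔ hf) h).wf) (c := c) ?_
  simpa [ellT, Tm.ren, ren_sh, od_ren, Dc_ren] using hc

theorem Built.join {Γ : List (Tm S)} {M B : Tm S} (h : Typ P Γ M B) :
    Built dd fun Δ f => ∃ X, Typ P' (dE φ (Tm.ren f dd.o) Γ ++ Δ) X
      (joinT (Tm.ren f dd.o) Γ) ∧ CSp (roles Γ.length) X := by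
  have hod := od_typ dd.ho Γ (dd.dtyp dd.ho h).wf
  obtain ⟨q, hq, hr⟩ := dd.hQ dd.sO dd.sO dd.hQ0
  obtain ⟨q2, hq2, hr2⟩ := dd.hQ dd.sO q hq
  refine (Built.reqPis hq2 (hod.arrow (hod.arrow hod hr) hr2)).map
    fun Δ f hΔ hf ⟨c, hc⟩ => spine_dE ((dd.dtyp (dd.oTyp hΔ hf) h).wf) (c := c) ?_
  simpa [joinT, Tm.ren, ren_sh, od_ren] using hc

theorem Data.pairT_typ {Δ : List (Tm T)} {o' : Tm T} (ho : Typ P' Δ o' (Tm.sort dd.sO))
    {Γ : List (Tm S)} {A : Tm S} {s : S} (h : Typ P Γ A (Tm.sort s)) :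
    ∃ q, dd.Q q ∧ Typ P' (dE φ o' Γ ++ Δ) (pairT o' φ Γ A) (Tm.sort q) := by
  have hA := dd.dtyp ho h
  rw [Dc_sort] at hA
  obtain ⟨t, ht⟩ := dd.hthk (φ s)
  have hth := dE_cons_wf ho hA ht
  have hod := od_typ ho (A :: Γ) (Wf.cons hth.wf hth)
  obtain ⟨q, hq, hr⟩ := dd.hQ t dd.sO dd.hQ0
  obtain ⟨q', hq', hr'⟩ := dd.hQ (φ s) q hq
  exact ⟨q', hq', .prod hA (.prod hth hod hr) hr'⟩

theorem Built.mpi {Γ : List (Tm S)} {A : Tm S} {s : S} (h : Typ P Γ A (Tm.sort s)) :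
    Built dd fun Δ f => ∃ X, Typ P' (dE φ (Tm.ren f dd.o) Γ ++ Δ) X
      (mpiT (Tm.ren f dd.o) φ Γ A) ∧ CSp (roles Γ.length) X := by
  have hod := od_typ dd.ho Γ (dd.dtyp dd.ho h).wf
  obtain ⟨q1, hq1, hp⟩ := dd.pairT_typ dd.ho h
  obtain ⟨q, hq, hr⟩ := dd.hQ q1 dd.sO dd.hQ0
  obtain ⟨q2, hq2, hr2⟩ := dd.hQ dd.sO q hq
  refine (Built.reqPis hq2 (hod.arrow (hp.arrow hod hr) hr2)).map
    fun Δ f hΔ hf ⟨c, hc⟩ => spine_dE ((dd.dtyp (dd.oTyp hΔ hf) h).wf) (c := c) ?_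
  simpa [mpiT, pairT, Tm.ren, ren_sh, ren_thT, od_ren, Dc_ren, upn2, od] using hc

/-- A translation of a typed type yields a memory term retaining the expression. -/
theorem Built.keep {Γ : List (Tm S)} {M C : Tm S} {s : S} (hC : Typ P Γ C (Tm.sort s))
    (h : Built dd (LTG dd Γ M C)) : Built dd (LOGG dd Γ M) := by
  refine (h.both (Built.ell hC)).map fun Δ f hΔ hf ⟨⟨t, htt, hts⟩, X, hX, hcs⟩ => ?_
  have ho' := dd.oTyp hΔ hf
  have hC' := dd.dtyp ho' hC
  rw [Dc_sort] at hC'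
  obtain ⟨u, hu⟩ := dd.hthk (φ s)
  exact ⟨_, hX.appArrow ((od_typ ho' Γ hC'.wf).thunk hC' hu htt), .keep hcs hts⟩

end Vale.Agent.P340
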