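import Vale.Agent.P340.Typing

namespace Vale.Agent.P340

open Tm

variable {S : Type*}

/-- Parallel reduction. -/
inductive Par : Tm S → Tm S → Prop where
  | var (i : ℕ) : Par (Tm.var i) (Tm.var i)
  | sort (s : S) : Par (Tm.sort s) (Tm.sort s)
  | app {M M' N N' : Tm S} : Par M M' → Par N N' → Par (Tm.app M N) (Tm.app M' N')
  | lam {A A' M M' : Tm S} : Par A A' → Par M M' → Par (Tm.lam A M) (Tm.lam A' M')
  | pi {A A' M M' : Tm S} : Par A A' → Par M M' → Par (Tm.pi A M) (Tm.pi A' M')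
  | beta (A : Tm S) {M M' N N' : Tm S} : Par M M' → Par N N' →
      Par (Tm.app (Tm.lam A M) N) (inst M' N')

theorem Par.refl (M : Tm S) : Par M M := by
  induction M with
  | var n => exact .var _
  | sort s => exact .sort _
  | app M N h1 h2 => exact .app h1 h2
  | lam M N h1 h2 => exact .lam h1 h2
  | pi M N h1 h2 => exact .pi h1 h2

theorem Par.of_step {M N : Tm S} (h : Step M N) : Par M N := by
  induction h with
  | beta A M N => exact .beta A (.refl _) (.refl _)
  | appL N _ ih => exact .app ih (.refl _)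
  | appR M _ ih => exact .app (.refl _) ih
  | lamA M _ ih => exact .lam ih (.refl _)
  | lamM A _ ih => exact .lam (.refl _) ih
  | piA B _ ih => exact .pi ih (.refl _)
  | piB A _ ih => exact .pi (.refl _) ih

theorem Par.steps {M N : Tm S} (h : Par M N) : Relation.ReflTransGen Step M N := by
  induction h with
  | var i => exact .refl
  | sort s => exact .refl
  | app _ _ h1 h2 =>
    exact (h1.lift (fun x => Tm.app x _) fun _ _ hh => Step.appL _ hh).trans
      (h2.lift (fun x => Tm.app _ x) fun _ _ hh => Step.appR _ hh)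
  | lam _ _ h1 h2 =>
    exact (h1.lift (fun x => Tm.lam x _) fun _ _ hh => Step.lamA _ hh).trans
      (h2.lift (fun x => Tm.lam _ x) fun _ _ hh => Step.lamM _ hh)
  | pi _ _ h1 h2 =>
    exact (h1.lift (fun x => Tm.pi x _) fun _ _ hh => Step.piA _ hh).trans
      (h2.lift (fun x => Tm.pi _ x) fun _ _ hh => Step.piB _ hh)
  | beta A _ _ h1 h2 =>
    exact ((h1.lift (fun x => Tm.app (Tm.lam A x) _) fun _ _ hh =>
        Step.appL _ (Step.lamM _ hh)).trans
      (h2.lift (fun x => Tm.app _ x) fun _ _ hh => Step.appR _ hh)).tail (.beta _ _ _)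

theorem Par.ren {M M' : Tm S} (h : Par M M') (f : ℕ → ℕ) :
    Par (Tm.ren f M) (Tm.ren f M') := by
  induction h generalizing f with
  | var i => exact .refl _
  | sort s => exact .sort _
  | app _ _ h1 h2 => exact .app (h1 f) (h2 f)
  | lam _ _ h1 h2 => exact .lam (h1 f) (h2 (up f))
  | pi _ _ h1 h2 => exact .pi (h1 f) (h2 (up f))
  | beta A _ _ h1 h2 => rw [ren_inst]; exact .beta _ (h1 (up f)) (h2 f)

theorem Par.sub {M M' : Tm S} (h : Par M M') : ∀ {σ τ : ℕ → Tm S},
    (∀ i, Par (σ i) (τ i)) → Par (Tm.sub σ M) (Tm.sub τ M') := by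
  have hup : ∀ {σ τ : ℕ → Tm S}, (∀ i, Par (σ i) (τ i)) → ∀ i, Par (ups σ i) (ups τ i) := by
    intro σ τ hs i; cases i
    · exact .var _
    · exact (hs _).ren _
  induction h with
  | var i => intro σ τ hs; exact hs i
  | sort s => intro σ τ _; exact .sort _
  | app _ _ h1 h2 => intro σ τ hs; exact .app (h1 hs) (h2 hs)
  | lam _ _ h1 h2 => intro σ τ hs; exact .lam (h1 hs) (h2 (hup hs))
  | pi _ _ h1 h2 => intro σ τ hs; exact .pi (h1 hs) (h2 (hup hs))
  | beta A _ _ h1 h2 =>
    intro σ τ hs; rw [sub_inst]; exact .beta _ (h1 (hup hs)) (h2 hs)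

theorem Par.inst {M M' N N' : Tm S} (h : Par M M') (h' : Par N N') :
    Par (Tm.inst M N) (Tm.inst M' N') := by
  refine h.sub fun i => ?_
  cases i
  · exact h'
  · exact .var _

theorem Par.diamond {M N1 : Tm S} (h : Par M N1) : ∀ {N2 : Tm S}, Par M N2 →
    Relation.Join Par N1 N2 := by
  induction h with
  | var i => intro N2 h2; cases h2; exact ⟨_, .var _, .var _⟩
  | sort i => intro N2 h2; cases h2; exact ⟨_, .sort _, .sort _⟩
  | lam _ _ i1 i2 =>
    intro N2 h2; cases h2 with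
    | lam a b =>
      obtain ⟨x, x1, x2⟩ := i1 a
      obtain ⟨y, y1, y2⟩ := i2 b
      exact ⟨_, .lam x1 y1, .lam x2 y2⟩
  | pi _ _ i1 i2 =>
    intro N2 h2; cases h2 with
    | pi a b =>
      obtain ⟨x, x1, x2⟩ := i1 a
      obtain ⟨y, y1, y2⟩ := i2 b
      exact ⟨_, .pi x1 y1, .pi x2 y2⟩
  | @app M M' N N' hM _ i1 i2 =>
    intro N2 h2; cases h2 with
    | app a b =>
      obtain ⟨x, x1, x2⟩ := i1 a
      obtain ⟨y, y1, y2⟩ := i2 b
      exact ⟨_, .app x1 y1, .app x2 y2⟩
    | @beta A P P2 _ Q2 a b =>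
      cases hM with
      | @lam _ A' _ P' hA hP =>
        obtain ⟨x, x1, x2⟩ := i1 (Par.lam (Par.refl A) a)
        obtain ⟨y, y1, y2⟩ := i2 b
        cases x1 with
        | lam _ q1 =>
          cases x2 with
          | lam _ q2 => exact ⟨_, .beta _ q1 y1, q2.inst y2⟩
  | @beta A M M' N N' hM _ i1 i2 =>
    intro N2 h2; cases h2 with
    | app a b =>
      cases a with
      | lam _ a =>
        obtain ⟨x, x1, x2⟩ := i1 a
        obtain ⟨y, y1, y2⟩ := i2 b
        exact ⟨_, x1.inst y1, .beta _ x2 y2⟩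
    | beta _ a b =>
      obtain ⟨x, x1, x2⟩ := i1 a
      obtain ⟨y, y1, y2⟩ := i2 b
      exact ⟨_, x1.inst y1, x2.inst y2⟩

theorem betaEq_join {A B : Tm S} (h : BetaEq A B) :
    Relation.Join (Relation.ReflTransGen Step) A B := by
  have cr : ∀ a b c : Tm S, Relation.ReflTransGen Step a b → Relation.ReflTransGen Step a c →
      Relation.Join (Relation.ReflTransGen Step) b c := by
    intro a b c hb hc
    obtain ⟨d, h1, h2⟩ := Relation.church_rosser
      (r := Par (S := S))
      (fun a b c h1 h2 => by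
        obtain ⟨d, x, y⟩ := Par.diamond h1 h2
        exact ⟨d, .single x, .single y⟩)
      (Relation.ReflTransGen.mono (fun _ _ h => Par.of_step h) a b hb)
      (Relation.ReflTransGen.mono (fun _ _ h => Par.of_step h) a c hc)
    have back : ∀ {x y : Tm S}, Relation.ReflTransGen Par x y →
        Relation.ReflTransGen Step x y := by
      intro x y hxy
      induction hxy with
      | refl => exact .refl
      | tail _ hs ih => exact ih.trans hs.steps
    exact ⟨d, back h1, back h2⟩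
  induction h with
  | rel x y h => exact ⟨y, .single h, .refl⟩
  | refl x => exact ⟨x, .refl, .refl⟩
  | symm x y _ ih => obtain ⟨d, a, b⟩ := ih; exact ⟨d, b, a⟩
  | trans x y z _ _ i1 i2 =>
    obtain ⟨d, a, b⟩ := i1
    obtain ⟨e, c, f⟩ := i2
    obtain ⟨g, u, v⟩ := cr y d e b c
    exact ⟨g, a.trans u, f.trans v⟩

theorem pi_steps {A B X : Tm S} (h : Relation.ReflTransGen Step (Tm.pi A B) X) :
    ∃ A' B', X = Tm.pi A' B' ∧ Relation.ReflTransGen Step A A' ∧
      Relation.ReflTransGen Step B B' := by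
  induction h with
  | refl => exact ⟨_, _, rfl, .refl, .refl⟩
  | tail _ hs ih =>
    obtain ⟨A', B', rfl, a, b⟩ := ih
    cases hs with
    | piA _ h => exact ⟨_, _, rfl, a.tail h, b⟩
    | piB _ h => exact ⟨_, _, rfl, a, b.tail h⟩

theorem steps_betaEq {A B : Tm S} (h : Relation.ReflTransGen Step A B) : BetaEq A B := by
  induction h with
  | refl => exact .refl _
  | tail _ hs ih => exact .trans _ _ _ ih (.rel _ _ hs)

theorem betaEq_pi_inv {A B A' B' : Tm S} (h : BetaEq (Tm.pi A B) (Tm.pi A' B')) :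
    BetaEq A A' ∧ BetaEq B B' := by
  obtain ⟨d, h1, h2⟩ := betaEq_join h
  obtain ⟨a, b, rfl, x1, y1⟩ := pi_steps h1
  obtain ⟨a', b', e, x2, y2⟩ := pi_steps h2
  cases e
  exact ⟨.trans _ _ _ (steps_betaEq x1) (.symm _ _ (steps_betaEq x2)),
    .trans _ _ _ (steps_betaEq y1) (.symm _ _ (steps_betaEq y2))⟩

variable {P : Spec S}

/-- Generation for abstractions. -/
theorem Typ.genLam {Γ : List (Tm S)} {A M T : Tm S} (h : Typ P Γ (Tm.lam A M) T) :
    ∃ B s, Typ P (A :: Γ) M B ∧ Typ P Γ (Tm.pi A B) (Tm.sort s) ∧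
      BetaEq (Tm.pi A B) T := by
  generalize hX : Tm.lam A M = X at h
  induction h generalizing A M with
  | sortAx _ => cases hX
  | start _ _ => cases hX
  | @weak Γ M0 B0 A' s hM hA ih _ =>
    cases M0 <;> simp [sh, Tm.ren] at hX
    obtain ⟨rfl, rfl⟩ := hX
    obtain ⟨B, s', h1, h2, h3⟩ := ih rfl
    have hp := Typ.weak h2 hA
    obtain ⟨s₁, s₂, hA1, -⟩ := hp.genPi
    exact ⟨Tm.ren (up Nat.succ) B, s', h1.rename (.cons hA1.wf hA1)
      ((RenTy.succ A' Γ).up _), hp, h3.ren _⟩
  | prod _ _ _ => cases hX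
  | abst hM hP => cases hX; exact ⟨_, _, hM, hP, .refl _⟩
  | appl _ _ _ _ => cases hX
  | conv _ _ he ih _ =>
    obtain ⟨B, s', h1, h2, h3⟩ := ih hX
    exact ⟨B, s', h1, h2, .trans _ _ _ h3 he⟩

/-- Replacing the last declaration by a convertible type. -/
theorem Typ.convCtx {Γ : List (Tm S)} {A A' M B : Tm S} {s s' : S}
    (h : Typ P (A :: Γ) M B) (hA : Typ P Γ A (Tm.sort s)) (hA' : Typ P Γ A' (Tm.sort s'))
    (he : BetaEq A' A) : Typ P (A' :: Γ) M B := by
  have := h.subst (σ := Tm.var) (Wf.cons hA'.wf hA') (fun i T hi => by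
    rw [sub_var]
    cases hi with
    | zero => exact .conv (.start hA') (.weak hA hA') (he.ren _)
    | succ _ hi => exact .weak (hA'.wf.varTyp hi) hA')
  simpa [sub_var] using this

/-- One step of subject reduction. -/
theorem Typ.step {Γ : List (Tm S)} {M B : Tm S} (h : Typ P Γ M B) :
    ∀ ⦃M' : Tm S⦄, Step M M' → Typ P Γ M' B := by
  induction h with
  | sortAx _ => intro M' hs; cases hs
  | start _ _ => intro M' hs; cases hs
  | @weak Γ M B A s hM hA ih _ =>
    intro M' hs
    obtain ⟨M1, hs1, rfl⟩ := step_ren_inv Nat.succ M hs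
    exact .weak (ih hs1) hA
  | prod hA hB hr ihA ihB =>
    intro M' hs
    cases hs with
    | piA _ h => exact .prod (ihA h) (hB.convCtx hA (ihA h) (.symm _ _ (.rel _ _ h))) hr
    | piB _ h => exact .prod hA (ihB h) hr
  | @abst Γ A M B s hM hP ihM ihP =>
    intro M' hs
    cases hs with
    | @lamA _ A' _ h =>
      obtain ⟨s₁, s₂, hA, -⟩ := hP.genPi
      have hP' := ihP (Step.piA B h)
      obtain ⟨s₁', s₂', hA', -⟩ := hP'.genPi
      exact .conv (.abst (hM.convCtx hA hA' (.symm _ _ (.rel _ _ h))) hP') hP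
        (.symm _ _ (.rel _ _ (Step.piA B h)))
    | lamM _ h => exact .abst (ihM h) hP
  | @appl Γ M N A B hM hN ihM ihN =>
    intro M' hs
    obtain ⟨s₁, s₂, hA, hB⟩ := hM.typeOfPi
    cases hs with
    | appL _ h => exact .appl (ihM h) hN
    | appR _ h =>
      refine .conv (.appl hM (ihN h)) (hB.inst0 hN) ?_
      refine .symm _ _ (steps_betaEq (Par.steps ((Par.refl B).inst (Par.of_step h))))
    | beta A0 P0 _ =>
      obtain ⟨B0, s0, hP0, hPi0, he⟩ := hM.genLam
      obtain ⟨eA, eB⟩ := betaEq_pi_inv he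
      obtain ⟨t₁, t₂, hA0, -⟩ := hPi0.genPi
      have hN0 : Typ P Γ N A0 := .conv hN hA0 (.symm _ _ eA)
      exact .conv (hP0.inst0 hN0) (hB.inst0 hN) (eB.sub _)
  | conv _ hB he ihM _ => intro M' hs; exact .conv (ihM hs) hB he
where
  step_ren_inv (f : ℕ → ℕ) (M : Tm S) : ∀ {M' : Tm S}, Step (Tm.ren f M) M' →
      ∃ M1, Step M M1 ∧ M' = Tm.ren f M1 := by
    induction M generalizing f with
    | var n => intro M' h; cases h
    | sort s => intro M' h; cases h
    | app M N ih1 ih2 =>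
      intro M' h
      generalize hX : Tm.ren f (Tm.app M N) = X at h
      cases h with
      | beta A P Q =>
        simp only [Tm.ren, Tm.app.injEq] at hX
        cases M <;> simp [Tm.ren] at hX
        obtain ⟨⟨rfl, rfl⟩, rfl⟩ := hX
        exact ⟨_, .beta _ _ _, (ren_inst _ _ _).symm⟩
      | appL _ h =>
        simp only [Tm.ren, Tm.app.injEq] at hX; obtain ⟨rfl, rfl⟩ := hX
        obtain ⟨x, hx, rfl⟩ := ih1 f h; exact ⟨_, .appL _ hx, rfl⟩
      | appR _ h =>
        simp only [Tm.ren, Tm.app.injEq] at hX; obtain ⟨rfl, rfl⟩ := hX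
        obtain ⟨x, hx, rfl⟩ := ih2 f h; exact ⟨_, .appR _ hx, rfl⟩
      | lamA | lamM | piA | piB => simp [Tm.ren] at hX
    | lam A N ih1 ih2 =>
      intro M' h; cases h with
      | lamA _ h => obtain ⟨x, hx, rfl⟩ := ih1 f h; exact ⟨_, .lamA _ hx, rfl⟩
      | lamM _ h => obtain ⟨x, hx, rfl⟩ := ih2 _ h; exact ⟨_, .lamM _ hx, rfl⟩
    | pi A N ih1 ih2 =>
      intro M' h; cases h with
      | piA _ h => obtain ⟨x, hx, rfl⟩ := ih1 f h; exact ⟨_, .piA _ hx, rfl⟩
      | piB _ h => obtain ⟨x, hx, rfl⟩ := ih2 _ h; exact ⟨_, .piB _ hx, rfl⟩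

theorem steps_sort {s : S} {X : Tm S} (h : Relation.ReflTransGen Step (Tm.sort s) X) :
    X = Tm.sort s := by
  induction h with
  | refl => rfl
  | tail _ hs ih => subst ih; cases hs

/-- If a typed expression is convertible to a sort, then that sort is typed in the same way. -/
theorem Typ.sortOfBetaEq {Γ : List (Tm S)} {B T : Tm S} {a : S} (h : Typ P Γ B T)
    (he : BetaEq (Tm.sort a) B) : Typ P Γ (Tm.sort a) T := by
  obtain ⟨d, h1, h2⟩ := betaEq_join he
  obtain rfl := steps_sort h1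
  clear he h1
  induction h2 using Relation.ReflTransGen.head_induction_on with
  | refl => exact h
  | head hs _ ih => exact ih (h.step hs)

/-- A typed sort has an axiom. -/
theorem Typ.genSort {Γ : List (Tm S)} {a : S} {T : Tm S} (h : Typ P Γ (Tm.sort a) T) :
    ∃ b, P.ax a b := by
  generalize hX : Tm.sort a = X at h
  induction h generalizing a with
  | sortAx h => cases hX; exact ⟨_, h⟩
  | start _ _ => cases hX
  | @weak Γ M B A s _ _ ih _ =>
    cases M <;> simp [sh, Tm.ren] at hX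
    subst hX; exact ih rfl
  | prod _ _ _ => cases hX
  | abst _ _ _ _ => cases hX
  | appl _ _ _ _ => cases hX
  | conv _ _ _ ih _ => exact ih hX

end Vale.Agent.P340
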