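import Vale.Agent.P340.Main

namespace Vale.Agent.P340

open Tm

/-- `MemoryClosed P`: the specification `P` has its own memory sort. -/
def MemoryClosed {S : Type*} (P : Spec S) : Prop := MemoryMap P P id

/-- The predicative hierarchy: sorts are natural numbers, axioms `(i, i+1)`, rules
`(i, j, max i j)`. -/
def predicative : Spec ℕ where
  ax i j := j = i + 1
  rule i j k := k = max i j

theorem predicative_memoryClosed : MemoryClosed predicative := by
  refine ⟨fun _ _ h => h, 0, [Tm.sort 0], Tm.var 0, fun _ => True, ?_, fun s => ⟨_, rfl⟩,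
    ?_, trivial, fun s q _ => ⟨_, trivial, rfl⟩⟩
  · exact Typ.start (A := Tm.sort 0) (Typ.sortAx (P := predicative) (rfl : (1 : ℕ) = 0 + 1))
  · intro a b c h
    refine ⟨_, _, rfl, rfl, ?_⟩
    simp only [predicative, id] at h ⊢
    omega

/-- The Calculus of Constructions, with `false` for `*` and `true` for `□`. -/
def constructions : Spec Bool where
  ax a b := a = false ∧ b = true
  rule _ b c := c = b

theorem constructions_memoryClosed : MemoryClosed constructions := by
  refine ⟨fun _ _ h => h, false, [Tm.sort false], Tm.var 0, fun q => q = false, ?_,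
    fun s => ⟨_, rfl⟩, ?_, rfl, fun s q h => ⟨q, h, rfl⟩⟩
  · exact Typ.start (A := Tm.sort false) (Typ.sortAx (P := constructions) ⟨rfl, rfl⟩)
  · intro a b c h
    exact ⟨a, b, rfl, rfl, h.trans rfl⟩

universe u

/-- The sorts of the memory extension of a specification. -/
inductive ExtSort (S : Type u) : Type u where
  | base : S → ExtSort S
  | mem : ExtSort S
  | memKind : ExtSort S
  | absorbed : ExtSort S
  | thunk : ExtSort S → ExtSort S
  | inner : S → S → ExtSort S

/-- The memory extension: `P` together with one inert atomic sort `mem` and the rules needed to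
double binders by thunks over it. -/
def memExt {S : Type u} (P : Spec S) : Spec (ExtSort S) where
  ax a b := (∃ x y, P.ax x y ∧ a = .base x ∧ b = .base y) ∨ (a = .mem ∧ b = .memKind)
  rule a b c :=
    (a = .mem ∧ c = .thunk b) ∨
    (∃ x y, a = .thunk (.base x) ∧ b = .base y ∧ c = .inner x y) ∨
    (∃ x y z, P.rule x y z ∧ a = .base x ∧ b = .inner x y ∧ c = .base z) ∨
    ((b = .mem ∨ b = .absorbed) ∧ c = .absorbed)

theorem memExt_memoryMap {S : Type u} (P : Spec S) :
    MemoryMap P (memExt P) ExtSort.base := by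
  refine ⟨fun a b h => .inl ⟨a, b, h, rfl, rfl⟩, .mem, [Tm.sort .mem], Tm.var 0,
    fun q => q = .mem ∨ q = .absorbed, ?_, fun s => ⟨.thunk s, .inl ⟨rfl, rfl⟩⟩, ?_,
    .inl rfl, fun s q h => ⟨.absorbed, .inr rfl, .inr (.inr (.inr ⟨h, rfl⟩))⟩⟩
  · exact Typ.start (A := Tm.sort .mem) (Typ.sortAx (P := memExt P) (Or.inr ⟨rfl, rfl⟩))
  · intro a b c h
    exact ⟨.thunk (.base a), .inner a b, .inl ⟨rfl, rfl⟩, .inr (.inl ⟨a, b, rfl, rfl, rfl⟩),
      .inr (.inr (.inl ⟨a, b, c, h, rfl, rfl, rfl⟩))⟩

end Vale.Agent.P340
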