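import Vale.Agent.P340.Build

namespace Vale.Agent.P340

open Tm

variable {S T : Type*} {φ : S → T} {P : Spec S} {P' : Spec T} {dd : Data P P' φ}

/-- The translated type of a judgment is typed by some sort. -/
def DTyped (dd : Data P P' φ) (Γ : List (Tm S)) (B : Tm S) : Prop :=
  ∃ s, Typ P' (dE φ dd.o Γ ++ dd.base) (Dc φ dd.o Γ B) (Tm.sort s)

/-- Both goals for a judgment. -/
def Both (dd : Data P P' φ) (Γ : List (Tm S)) (M B : Tm S) : Prop :=
  (DTyped dd Γ B → Built dd (LTG dd Γ M B)) ∧ Built dd (LOGG dd Γ M)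

theorem both_sortAx {s₁ s₂ : S} (h : P.ax s₁ s₂) :
    Both dd [] (Tm.sort s₁) (Tm.sort s₂) := by
  have hw := dd.ho.wf
  constructor
  · rintro ⟨s, hs⟩
    obtain ⟨k, hk⟩ := hs.genSort
    obtain ⟨t, ht⟩ := dd.hthk k
    refine (Built.req (dd.ho.arrow (hw.axTyp hk) ht)).map fun Δ f hΔ hf ⟨c, hc⟩ => ?_
    have ho' := dd.oTyp hΔ hf
    simp only [Tm.ren, ren_sh] at hc
    have hv := Typ.weak (hΔ.varTyp hc) ho'
    rw [sh_pi_sh] at hv
    exact ⟨_, Typ.appArrow hv (.start ho'), .leafSort s₁ (.var rfl) (.tok rfl)⟩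
  · refine (Built.req dd.ho).map fun Δ f hΔ _ ⟨c, hc⟩ => ?_
    exact ⟨_, hΔ.varTyp hc, .srt _ _ _⟩

theorem both_start {Γ : List (Tm S)} {A : Tm S} {s : S} (h : Typ P Γ A (Tm.sort s)) :
    Both dd (A :: Γ) (Tm.var 0) (sh A) := by
  have hLT : Built dd (LTG dd (A :: Γ) (Tm.var 0) (sh A)) := by
    refine ⟨[], by simp, fun Δ f hΔ hf _ => ?_⟩
    have ho' := dd.oTyp hΔ hf
    have hw : Wf P' (dE φ (Tm.ren f dd.o) (A :: Γ) ++ Δ) :=
      (dd.dtyp ho' (Typ.start h)).wf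
    have hod := od_typ ho' (A :: Γ) hw
    have h0 := Typ.weak (hw.varTyp (Look.zero _ _)) hod
    simp only [thT, sh_pi_sh] at h0
    refine ⟨Tm.app (Tm.var 1) (Tm.var 0), ?_, .leafVar rfl (.tok rfl)⟩
    rw [Dc_sh]
    exact Typ.appArrow h0 (.start hod)
  exact ⟨fun _ => hLT, Built.keep (Typ.weak h h) hLT⟩

theorem both_weak {Γ : List (Tm S)} {M B A : Tm S} {s : S} (hM : Typ P Γ M B)
    (hA : Typ P Γ A (Tm.sort s)) (ih : Both dd Γ M B) : Both dd (A :: Γ) (sh M) (sh B) := by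
  have hw' : ∀ {Δ : List (Tm T)} {f : ℕ → ℕ}, Wf P' Δ → RenTy f dd.base Δ →
      Wf P' (dE φ (Tm.ren f dd.o) (A :: Γ) ++ Δ) := fun hΔ hf =>
    (dd.dtyp (dd.oTyp hΔ hf) (Typ.weak hM hA)).wf
  constructor
  · rintro ⟨k, hk⟩
    have hsmall : DTyped dd Γ B := by
      have hd := dd.dtyp dd.ho hM
      rcases hd.validity with ⟨a, ha⟩ | h
      · rw [Dc_sh, ha] at hk
        obtain ⟨b, hb⟩ := Typ.genSort (a := a) hk
        exact ⟨b, by rw [ha]; exact hd.wf.axTyp hb⟩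
      · exact h
    refine (ih.1 hsmall).map fun Δ f hΔ hf ⟨t, ht, hts⟩ => ?_
    have hw := hw' hΔ hf
    have hod := od_typ (dd.oTyp hΔ hf) (A :: Γ) hw
    have hr : RenTy (Nat.succ ∘ Nat.succ) (dE φ (Tm.ren f dd.o) Γ ++ Δ)
        (dE φ (Tm.ren f dd.o) (A :: Γ) ++ Δ) :=
      (RenTy.succ _ _).comp (RenTy.succ _ _)
    have hr' := hr.up (od (Tm.ren f dd.o) Γ.length)
    have e : Tm.ren (Nat.succ ∘ Nat.succ) (od (Tm.ren f dd.o) Γ.length)
        = od (Tm.ren f dd.o) (Γ.length + 1) := by simp [od, sh, ren_ren]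
    rw [e] at hr'
    refine ⟨_, ?_, hts.ren (renOK_shift2 (roles Γ.length)).upT⟩
    have := ht.rename (.cons hw hod) hr'
    rw [ren_sh] at this
    rw [Dc_sh]
    simpa [sh, ren_ren] using this
  · refine ih.2.map fun Δ f hΔ hf ⟨e, he, hes⟩ => ?_
    have hw := hw' hΔ hf
    have := he.rename hw ((RenTy.succ _ _).comp (RenTy.succ _ _))
    refine ⟨_, ?_, hes.ren (renOK_shift2 (roles Γ.length))⟩
    simpa [od, sh, ren_ren] using this

theorem both_prod {Γ : List (Tm S)} {A B : Tm S} {s₁ s₂ s₃ : S}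
    (hA : Typ P Γ A (Tm.sort s₁)) (hB : Typ P (A :: Γ) B (Tm.sort s₂))
    (hr : P.rule s₁ s₂ s₃) (ihA : Both dd Γ A (Tm.sort s₁))
    (ihB : Both dd (A :: Γ) B (Tm.sort s₂)) :
    Both dd Γ (Tm.pi A B) (Tm.sort s₃) := by
  have hLOG : Built dd (LOGG dd Γ (Tm.pi A B)) := by
    refine ((ihA.2.both ihB.2).both (Built.mpi hA)).map
      fun Δ f hΔ hf ⟨⟨⟨ea, hea, has⟩, eb, heb, hbs⟩, X, hX, hcs⟩ => ?_
    have ho' := dd.oTyp hΔ hf
    obtain ⟨q, -, hp⟩ := dd.pairT_typ ho' hA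
    obtain ⟨_, _, -, hin⟩ := hp.genPi
    exact ⟨_, (hX.appArrow hea).appArrow (.abst (.abst heb hin) hp), .mpi hcs has hbs⟩
  refine ⟨?_, hLOG⟩
  rintro ⟨k, hk⟩
  obtain ⟨k', hk'⟩ := hk.genSort
  obtain ⟨t, ht⟩ := dd.hthk k'
  refine ((hLOG.both (Built.join hA)).both
    (Built.req (dd.ho.arrow (dd.ho.wf.axTyp hk') ht))).map
    fun Δ f hΔ hf ⟨⟨⟨e, he, hes⟩, X, hX, hcs⟩, c, hc⟩ => ?_
  have ho' := dd.oTyp hΔ hf
  have hod := od_typ ho' Γ he.wf
  simp only [Tm.ren, ren_sh] at hc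
  have hX' := Typ.weak hX hod
  rw [joinT, sh_pi_sh] at hX'
  have h1 := hX'.appArrow (.start hod)
  rw [sh_pi_sh] at h1
  have hm := h1.appArrow (Typ.weak he hod)
  have hv := Typ.weak (he.wf.varTyp (lookUnder (φ := φ) (Tm.ren f dd.o) hc Γ)) hod
  have e1 : Tm.ren (fun i => i + 2 * Γ.length)
      (Tm.pi (Tm.ren f dd.o) (sh (Tm.sort (φ s₃)))) =
      Tm.pi (od (Tm.ren f dd.o) Γ.length) (sh (Tm.sort (φ s₃))) := by
    simp [Tm.ren, ren_sh, ← od_eq_ren]
  rw [e1, sh_pi_sh] at hv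
  refine ⟨_, hv.appArrow hm, .leafPi (K := [none]) (.var ?_) ?_⟩
  · show (roles Γ.length (c + 2 * Γ.length)).clear = _
    rw [roles_cst]; rfl
  · have hes' := hes.ren (renOK_nu Γ.length)
    simp only [Option.map_none, List.map_cons, List.map_nil, Option.map_some, ren_id] at hes'
    exact Sim.join (hcs.ren (renOK_nu Γ.length)) (.tok rfl) hes'

theorem both_abst {Γ : List (Tm S)} {A M B : Tm S} {s : S}
    (hM : Typ P (A :: Γ) M B) (hP : Typ P Γ (Tm.pi A B) (Tm.sort s))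
    (ihM : Both dd (A :: Γ) M B) (ihP : Both dd Γ (Tm.pi A B) (Tm.sort s)) :
    Both dd Γ (Tm.lam A M) (Tm.pi A B) := by
  obtain ⟨s₁, s₂, hA, hB⟩ := hP.genPi
  have hbig : DTyped dd (A :: Γ) B := ⟨φ s₂, dd.dtyp dd.ho hB⟩
  have hLT : Built dd (LTG dd Γ (Tm.lam A M) (Tm.pi A B)) := by
    refine ((((ihM.1 hbig).both ihP.2).both (Built.ell (Typ.weak hA hA))).both
      (Built.join (Γ := A :: Γ) hM)).map
      fun Δ f hΔ hf ⟨⟨⟨⟨t, ht, hts⟩, e, he, hes⟩, Y, hY, hys⟩, X, hX, hxs⟩ => ?_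
    have ho' := dd.oTyp hΔ hf
    have hw : Wf P' (dE φ (Tm.ren f dd.o) (A :: Γ) ++ Δ) := (dd.dtyp ho' hM).wf
    have hodA := od_typ ho' (A :: Γ) hw
    have hod := od_typ ho' Γ he.wf
    -- memory retaining the product and the new variable
    have hx0 := hw.varTyp (Look.zero _ _)
    simp only [thT, sh_pi_sh] at hx0
    rw [Dc_sh] at hY
    have hk := hY.appArrow hx0
    have hr2 : RenTy (Nat.succ ∘ Nat.succ) (dE φ (Tm.ren f dd.o) Γ ++ Δ)
        (dE φ (Tm.ren f dd.o) (A :: Γ) ++ Δ) :=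
      (RenTy.succ _ _).comp (RenTy.succ _ _)
    have he' : Typ P' (dE φ (Tm.ren f dd.o) (A :: Γ) ++ Δ)
        (Tm.ren (Nat.succ ∘ Nat.succ) e) (od (Tm.ren f dd.o) (Γ.length + 1)) := by
      simpa [od, sh, ren_ren] using he.rename hw hr2
    have hm1 := (hX.appArrow he').appArrow hk
    have hsim1 := Sim.join hxs (hes.ren (renOK_shift2 (roles Γ.length)))
      (Sim.keepVar (S := S) (i := 0) (n := 0) hys rfl)
    -- move everything under the token of the result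
    have hg : RenTy (up (up Nat.succ)) (dE φ (Tm.ren f dd.o) (A :: Γ) ++ Δ)
        (Tm.ren (up Nat.succ) (thT (od (Tm.ren f dd.o) Γ.length) (Dc φ (Tm.ren f dd.o) Γ A)) ::
          sh (Dc φ (Tm.ren f dd.o) Γ A) ::
          od (Tm.ren f dd.o) Γ.length :: (dE φ (Tm.ren f dd.o) Γ ++ Δ)) :=
      ((RenTy.succ _ _).up _).up _
    have hp := dd.dtyp ho' hP
    rw [Dc_sort] at hp
    have hp' := Typ.weak hp hod
    obtain ⟨_, _, hA', hin⟩ := hp'.genPi
    obtain ⟨_, _, hth, -⟩ := hin.genPi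
    have hw2 := Wf.cons hth.wf hth
    have hX2 := hX.rename hw2 hg
    have hm1' := hm1.rename hw2 hg
    have hodg : Tm.ren (up (up Nat.succ)) (od (Tm.ren f dd.o) (Γ.length + 1)) =
        sh (sh (sh (od (Tm.ren f dd.o) Γ.length))) := by
      simp only [od, ren_sh]; rfl
    simp only [List.length_cons] at hm1'
    rw [hodg] at hm1'
    have hν := hw2.varTyp (Look.succ _ (Look.succ _ (Look.zero _ _)))
    simp only [joinT, List.length_cons, Tm.ren, ren_sh] at hX2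
    rw [hodg] at hX2
    have hm := (hX2.appArrow hν).appArrow hm1'
    have hg' : RenTy (up (up (up Nat.succ)))
        (od (Tm.ren f dd.o) (Γ.length + 1) :: (dE φ (Tm.ren f dd.o) (A :: Γ) ++ Δ)) _ :=
      hg.up _
    rw [hodg] at hg'
    have hodB := hodA.rename hw2 hg
    simp only [List.length_cons] at hodB
    rw [hodg] at hodB
    have ht' := (ht.rename (.cons hw2 hodB) hg').inst0 hm
    rw [ren_sh, inst_sh] at ht'
    have hsim2 := hsim1.ren ((renOK_nu Γ.length).upB)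
    have hsimT := hts.ren ((renOK_nu Γ.length).upB.upT)
    simp only [up_id, List.map_cons, List.map_nil, Option.map_some, Option.map_none,
      ren_id, List.map_append] at hsim2 hsimT
    have hsimM := Sim.join (hxs.ren ((renOK_nu Γ.length).upB)) (Sim.tok (S := S) (i := 2)
      (ρ := upB (upT (roles Γ.length))) rfl) hsim2
    refine ⟨Tm.lam (sh (Dc φ (Tm.ren f dd.o) Γ A)) (Tm.lam _ _),
      Typ.abst (.abst ht' hin) hp', .lam (B := B) ?_⟩
    exact instTok hsimT hsimM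
  exact ⟨fun _ => hLT, Built.keep hP hLT⟩

theorem both_appl {Γ : List (Tm S)} {M N A B : Tm S} (hM : Typ P Γ M (Tm.pi A B))
    (hN : Typ P Γ N A) (ihM : Both dd Γ M (Tm.pi A B)) (ihN : Both dd Γ N A) :
    Both dd Γ (Tm.app M N) (inst B N) := by
  obtain ⟨s₁, s₂, hA, hB⟩ := hM.typeOfPi
  have hPi : DTyped dd Γ (Tm.pi A B) := by
    rcases (dd.dtyp dd.ho hM).validity with ⟨a, ha⟩ | h
    · simp [Dc, D] at ha
    · exact h
  have hLT : Built dd (LTG dd Γ (Tm.app M N) (inst B N)) := by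
    refine ((ihM.1 hPi).both (ihN.1 ⟨φ s₁, dd.dtyp dd.ho hA⟩)).map
      fun Δ f hΔ hf ⟨⟨tm, htm, hms⟩, tn, htn, hns⟩ => ?_
    have ho' := dd.oTyp hΔ hf
    have hA' := dd.dtyp ho' hA
    rw [Dc_sort] at hA'
    have hN' := dd.dtyp ho' hN
    have hod := od_typ ho' Γ hA'.wf
    obtain ⟨u, hu⟩ := dd.hthk (φ s₁)
    have hth := hod.thunk hA' hu htn
    have hth' := Typ.weak hth hod
    rw [sh_pi_sh] at hth'
    have hF : Typ P' (od (Tm.ren f dd.o) Γ.length :: (dE φ (Tm.ren f dd.o) Γ ++ Δ)) tm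
        (Tm.pi (sh (Dc φ (Tm.ren f dd.o) Γ A))
          (Tm.pi (thT (sh (od (Tm.ren f dd.o) Γ.length)) (sh (Dc φ (Tm.ren f dd.o) Γ A)))
            (Tm.ren (up (up Nat.succ)) (Dc φ (Tm.ren f dd.o) (A :: Γ) B)))) := by
      simpa [Dc, D, sh, Tm.ren, ren_thT, od, pd] using htm
    have happ := hF.appPair (Typ.weak hN' hod) hth'
    refine ⟨Tm.app (Tm.app tm (sh (Dc φ (Tm.ren f dd.o) Γ N)))
      (sh (Tm.lam (od (Tm.ren f dd.o) Γ.length) tn)), ?_,
      .app hms (by simpa [ren_id] using hns.ren (renOK_nu Γ.length).upT)⟩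
    have e := D_inst φ B N (od (Tm.ren f dd.o) Γ.length)
      (Tm.lam (od (Tm.ren f dd.o) Γ.length) tn) (pd (Tm.ren f dd.o) Γ.length)
    have e2 : Tm.sub (pairSub (sh (Dc φ (Tm.ren f dd.o) Γ N))
          (sh (Tm.lam (od (Tm.ren f dd.o) Γ.length) tn)))
          (Tm.ren (up (up Nat.succ)) (Dc φ (Tm.ren f dd.o) (A :: Γ) B)) =
        sh (Dc φ (Tm.ren f dd.o) Γ (inst B N)) := by
      rw [show Dc φ (Tm.ren f dd.o) Γ (inst B N) = _ from e.symm, sub_ren, sh, sh, sh, ren_sub]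
      simp only [Dc, List.length_cons, od, pd]
      apply sub_ext
      intro i
      match i with
      | 0 => rfl
      | 1 => rfl
      | i + 2 => rfl
    rw [e2] at happ
    exact happ
  exact ⟨fun _ => hLT, Built.keep (hB.inst0 hN) hLT⟩

theorem both_conv {Γ : List (Tm S)} {M A B : Tm S} {s : S} (hM : Typ P Γ M A)
    (hB : Typ P Γ B (Tm.sort s)) (he : BetaEq A B) (ihM : Both dd Γ M A) :
    Both dd Γ M B := by
  have hA : DTyped dd Γ A := by
    rcases (dd.dtyp dd.ho hM).validity with ⟨a, ha⟩ | h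
    · have hB' := dd.dtyp dd.ho hB
      have he' : BetaEq (Dc φ dd.o Γ A) (Dc φ dd.o Γ B) := D_betaEq φ he _ _
      rw [ha] at he'
      exact ⟨φ s, by rw [ha]; exact hB'.sortOfBetaEq he'⟩
    · exact h
  refine ⟨fun _ => (ihM.1 hA).map fun Δ f hΔ hf ⟨t, ht, hts⟩ => ?_, ihM.2⟩
  have ho' := dd.oTyp hΔ hf
  have hB' := dd.dtyp ho' hB
  exact ⟨t, .conv ht (Typ.weak hB' (od_typ ho' Γ hB'.wf)) ((D_betaEq φ he _ _).ren _), hts⟩

theorem Data.both (dd : Data P P' φ) {Γ : List (Tm S)} {M B : Tm S} (h : Typ P Γ M B) :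
    Both dd Γ M B := by
  induction h with
  | sortAx h => exact both_sortAx h
  | start h _ => exact both_start h
  | weak hM hA ih _ => exact both_weak hM hA ih
  | prod hA hB hr iA iB => exact both_prod hA hB hr iA iB
  | abst hM hP iM iP => exact both_abst hM hP iM iP
  | appl hM hN iM iN => exact both_appl hM hN iM iN
  | conv hM hB he iM _ => exact both_conv hM hB he iM

/-- Supplying finitely many typed variables. -/
theorem exists_ext {Γ : List (Tm T)} (hΓ : Wf P' Γ) (L : List (Tm T))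
    (hL : ∀ X ∈ L, ∃ k, Typ P' Γ X (Tm.sort k)) :
    ∃ Δ f, Wf P' Δ ∧ RenTy f Γ Δ ∧ ∀ X ∈ L, ∃ c, Look Δ c (Tm.ren f X) := by
  induction L with
  | nil => exact ⟨Γ, id, hΓ, fun i X h => by simpa [ren_id] using h, by simp⟩
  | cons X L ih =>
    obtain ⟨Δ, f, hΔ, hf, hl⟩ := ih fun Y hY => hL Y (by simp [hY])
    obtain ⟨k, hk⟩ := hL X (by simp)
    refine ⟨Tm.ren f X :: Δ, Nat.succ ∘ f, .cons hΔ (hk.rename hΔ hf),
      hf.comp (RenTy.succ _ _), fun Y hY => ?_⟩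
    rcases List.mem_cons.1 hY with rfl | hY
    · exact ⟨0, by rw [← ren_ren]; exact .zero _ _⟩
    · obtain ⟨c, hc⟩ := hl Y hY
      exact ⟨c + 1, by rw [← ren_ren]; exact .succ _ hc⟩

/-- Weak normalization of the target gives strong normalization of the source. -/
theorem sn_of_memoryMap {S T : Type*} {P : Spec S} {P' : Spec T} {φ : S → T}
    (h : MemoryMap P P' φ) (hW : WeaklyNormalizing P') : StronglyNormalizing P := by
  obtain ⟨hax, sO, Γ₀, o, Q, ho, hthk, hdbl, hQ0, hQ⟩ := h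
  let dd : Data P P' φ := ⟨sO, Γ₀, o, Q, ho, hax, hthk, hdbl, hQ0, hQ⟩
  have sub : ∀ {Γ : List (Tm S)} {M B : Tm S}, Typ P Γ M B → SAcc M := by
    intro Γ M B hM
    obtain ⟨L, hL, hG⟩ := (dd.both hM).2
    obtain ⟨Δ, f, hΔ, hf, hav⟩ := exists_ext ho.wf L hL
    obtain ⟨e, he, hes⟩ := hG Δ f hΔ hf hav
    exact hes.retained (hW e ⟨_, _, .inl he⟩)
  intro M hM
  obtain ⟨Γ, B, hM | hM⟩ := hM
  · exact (sub hM).noSeq
  · rcases hM.validity with ⟨s, rfl⟩ | ⟨s, hs⟩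
    · exact (SAcc.sort s).noSeq
    · exact (sub hs).noSeq

end Vale.Agent.P340
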