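import Vale.Agent.P340.Syntax

namespace Vale.Agent.P340

open Tm

variable {S : Type*}

/-- Accessibility for reduction: no infinite reduction starts here. -/
def SAcc (M : Tm S) : Prop := Acc (fun a b => Step b a) M

theorem SAcc.noSeq {M : Tm S} (h : SAcc M) : SNTm M := by
  induction h with
  | intro M _ ih =>
    rintro ⟨f, rfl, hf⟩
    exact ih (f 1) (hf 0) ⟨fun n => f (n + 1), rfl, fun n => hf (n + 1)⟩

theorem SAcc.step {M M' : Tm S} (h : SAcc M) (hs : Step M M') : SAcc M' := h.inv hs

theorem SAcc.steps {M M' : Tm S} (h : SAcc M) (hs : Relation.ReflTransGen Step M M') :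
    SAcc M' := by
  induction hs with
  | refl => exact h
  | tail _ h' ih => exact ih.step h'

theorem SAcc.sort (s : S) : SAcc (Tm.sort s) := ⟨_, fun _ h => by cases h⟩

theorem SAcc.var (i : ℕ) : SAcc (Tm.var i : Tm S) := ⟨_, fun _ h => by cases h⟩

theorem SAcc.lam {A M : Tm S} (hA : SAcc A) (hM : SAcc M) : SAcc (Tm.lam A M) := by
  induction hA generalizing M with
  | intro A _ ihA =>
    induction hM with
    | intro M hM' ihM =>
      refine ⟨_, fun X hX => ?_⟩
      cases hX with
      | lamA _ h => exact ihA _ h ⟨_, hM'⟩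
      | lamM _ h => exact ihM _ h

theorem SAcc.pi {A M : Tm S} (hA : SAcc A) (hM : SAcc M) : SAcc (Tm.pi A M) := by
  induction hA generalizing M with
  | intro A _ ihA =>
    induction hM with
    | intro M hM' ihM =>
      refine ⟨_, fun X hX => ?_⟩
      cases hX with
      | piA _ h => exact ihA _ h ⟨_, hM'⟩
      | piB _ h => exact ihM _ h

theorem SAcc.of_pi {A M : Tm S} (h : SAcc (Tm.pi A M)) : SAcc A ∧ SAcc M := by
  generalize hX : Tm.pi A M = X at h
  induction h generalizing A M with
  | intro X _ ih =>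
    subst hX
    exact ⟨⟨_, fun A' hA' => (ih _ (.piA M hA') rfl).1⟩,
      ⟨_, fun M' hM' => (ih _ (.piB A hM') rfl).2⟩⟩

theorem SAcc.of_sub {M : Tm S} {σ : ℕ → Tm S} (h : SAcc (Tm.sub σ M)) : SAcc M := by
  generalize hX : Tm.sub σ M = X at h
  induction h generalizing M with
  | intro X _ ih => subst hX; exact ⟨_, fun M' hM' => ih _ (hM'.sub σ) rfl⟩

theorem SAcc.of_sh {M : Tm S} (h : SAcc (sh M)) : SAcc M := by
  rw [sh, ren_eq_sub] at h; exact h.of_sub

/-- Expressions that can never become an abstraction by reduction. -/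
inductive Neut : Tm S → Prop where
  | var (i : ℕ) : Neut (Tm.var i)
  | sort (s : S) : Neut (Tm.sort s)
  | pi (A B : Tm S) : Neut (Tm.pi A B)
  | app {M : Tm S} (N : Tm S) : Neut M → Neut (Tm.app M N)

theorem Neut.step {M M' : Tm S} (h : Neut M) (hs : Step M M') : Neut M' := by
  induction h generalizing M' with
  | var i => cases hs
  | sort s => cases hs
  | pi A B => cases hs <;> exact .pi _ _
  | app N hM ih =>
    cases hs with
    | beta => cases hM
    | appL _ h => exact .app _ (ih h)
    | appR _ h => exact .app _ hM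

theorem SAcc.app {M N : Tm S} (hn : Neut M) (hM : SAcc M) (hN : SAcc N) :
    SAcc (Tm.app M N) := by
  induction hM generalizing N with
  | intro M _ ihM =>
    induction hN with
    | intro N hN' ihN =>
      refine ⟨_, fun X hX => ?_⟩
      cases hX with
      | beta => cases hn
      | appL _ h => exact ihM _ h (hn.step h) ⟨_, hN'⟩
      | appR _ h => exact ihN _ h

/-- Iterated application. -/
def apps : Tm S → List (Tm S) → Tm S
  | h, [] => h
  | h, N :: Ns => apps (Tm.app h N) Ns

theorem SAcc.apps {h : Tm S} {Ns : List (Tm S)} (hn : Neut h) (hh : SAcc h)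
    (hs : ∀ N ∈ Ns, SAcc N) : SAcc (apps h Ns) := by
  induction Ns generalizing h with
  | nil => exact hh
  | cons N Ns ih =>
    exact ih (.app _ hn) (hh.app hn (hs N (by simp))) (fun x hx => hs x (by simp [hx]))

/-- One step inside one member of a list. -/
inductive StepList : List (Tm S) → List (Tm S) → Prop where
  | head {N N' : Tm S} (Ns : List (Tm S)) : Step N N' → StepList (N :: Ns) (N' :: Ns)
  | tail (N : Tm S) {Ns Ns' : List (Tm S)} : StepList Ns Ns' → StepList (N :: Ns) (N :: Ns')

theorem apps_step {h h' : Tm S} (hs : Step h h') (Ns : List (Tm S)) :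
    Step (apps h Ns) (apps h' Ns) := by
  induction Ns generalizing h h' with
  | nil => exact hs
  | cons N Ns ih => exact ih (.appL _ hs)

theorem apps_steps {h h' : Tm S} (hs : Relation.ReflTransGen Step h h') (Ns : List (Tm S)) :
    Relation.ReflTransGen Step (apps h Ns) (apps h' Ns) := by
  induction hs with
  | refl => exact .refl
  | tail _ h' ih => exact ih.tail (apps_step h' Ns)

theorem apps_stepList {Ns Ns' : List (Tm S)} (hs : StepList Ns Ns') (h : Tm S) :
    Step (apps h Ns) (apps h Ns') := by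
  induction hs generalizing h with
  | head Ns hN => exact apps_step (.appR _ hN) Ns
  | tail N _ ih => exact ih _

theorem apps_app_inv {h g : Tm S} {Ns : List (Tm S)} {X : Tm S}
    (hs : Step (apps (Tm.app h g) Ns) X) :
    (∃ h', Step (Tm.app h g) h' ∧ X = apps h' Ns) ∨
      ∃ Ns', StepList Ns Ns' ∧ X = apps (Tm.app h g) Ns' := by
  induction Ns generalizing h g with
  | nil => exact .inl ⟨_, hs, rfl⟩
  | cons N Ns ih =>
    rcases ih hs with ⟨h', h1, rfl⟩ | ⟨Ns', h1, rfl⟩
    · cases h1 with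
      | appL _ h2 => exact .inl ⟨_, h2, rfl⟩
      | appR _ h2 => exact .inr ⟨_, .head _ h2, rfl⟩
    · exact .inr ⟨_, .tail _ h1, rfl⟩

theorem sub_steps (M : Tm S) : ∀ {σ τ : ℕ → Tm S},
    (∀ i, Relation.ReflTransGen Step (σ i) (τ i)) →
      Relation.ReflTransGen Step (Tm.sub σ M) (Tm.sub τ M) := by
  induction M with
  | var n => intro σ τ h; exact h n
  | sort s => intro σ τ _; exact .refl
  | app M N ihM ihN =>
    intro σ τ h
    exact ((ihM h).lift (fun x => Tm.app x _) fun _ _ hh => Step.appL _ hh).trans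
      ((ihN h).lift (fun x => Tm.app _ x) fun _ _ hh => Step.appR _ hh)
  | lam A M ihA ihM =>
    intro σ τ h
    refine ((ihA h).lift (fun x => Tm.lam x _) fun _ _ hh => Step.lamA _ hh).trans
      ((ihM ?_).lift (fun x => Tm.lam _ x) fun _ _ hh => Step.lamM _ hh)
    intro i; cases i
    · exact .refl
    · exact (h _).lift sh fun _ _ hh => hh.ren _
  | pi A M ihA ihM =>
    intro σ τ h
    refine ((ihA h).lift (fun x => Tm.pi x _) fun _ _ hh => Step.piA _ hh).trans
      ((ihM ?_).lift (fun x => Tm.pi _ x) fun _ _ hh => Step.piB _ hh)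
    intro i; cases i
    · exact .refl
    · exact (h _).lift sh fun _ _ hh => hh.ren _

/-- Head expansion preserves strong normalization. -/
theorem SAcc.expand {A Q : Tm S} (hA : SAcc A) (hQ : SAcc Q) :
    ∀ {M : Tm S} {Ns : List (Tm S)}, SAcc (Vale.Agent.P340.apps (inst M Q) Ns) →
      SAcc (Vale.Agent.P340.apps (Tm.app (Tm.lam A M) Q) Ns) := by
  induction hA generalizing Q with
  | intro A _ ihA =>
    induction hQ with
    | intro Q hQ' ihQ =>
      intro M Ns hW
      generalize hX : Vale.Agent.P340.apps (inst M Q) Ns = W at hW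
      induction hW generalizing M Ns with
      | intro W hW' ihW =>
        subst hX
        refine ⟨_, fun X hX => ?_⟩
        rcases apps_app_inv hX with ⟨h', h1, rfl⟩ | ⟨Ns', h1, rfl⟩
        · cases h1 with
          | beta => exact ⟨_, hW'⟩
          | appL _ h2 =>
            cases h2 with
            | lamA _ h3 => exact ihA _ h3 ⟨_, hQ'⟩ ⟨_, hW'⟩
            | lamM _ h3 => exact ihW _ (apps_step (h3.sub _) Ns) rfl
          | appR _ h2 =>
            refine ihQ _ h2 (SAcc.steps ⟨_, hW'⟩ (apps_steps (sub_steps M ?_) Ns))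
            intro i; cases i
            · exact .single h2
            · exact .refl
        · exact ihW _ (apps_stepList h1 _) rfl

/-- Weak head reduction. -/
inductive Wh : Tm S → Tm S → Prop where
  | beta (A M N : Tm S) : Wh (Tm.app (Tm.lam A M) N) (inst M N)
  | appL {M M' : Tm S} (N : Tm S) : Wh M M' → Wh (Tm.app M N) (Tm.app M' N)

theorem Wh.det {M M' M'' : Tm S} (h : Wh M M') (h' : Wh M M'') : M' = M'' := by
  induction h generalizing M'' with
  | beta A M N =>
    cases h' with
    | beta => rfl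
    | appL _ h2 => cases h2
  | appL N h1 ih =>
    cases h' with
    | beta => cases h1
    | appL _ h2 => rw [ih h2]

theorem Wh.not_neut {M M' : Tm S} (h : Wh M M') : ¬ Neut M := by
  induction h with
  | beta => intro hn; cases hn with | app _ h => cases h
  | appL _ _ ih => intro hn; cases hn with | app _ h => exact ih h

theorem Wh.ren {M M' : Tm S} (h : Wh M M') (f : ℕ → ℕ) : Wh (Tm.ren f M) (Tm.ren f M') := by
  induction h with
  | beta A M N => rw [ren_inst]; exact .beta _ _ _
  | appL N _ ih => exact .appL _ ih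

theorem Wh.sub {M M' : Tm S} (h : Wh M M') (σ : ℕ → Tm S) :
    Wh (Tm.sub σ M) (Tm.sub σ M') := by
  induction h with
  | beta A M N => rw [sub_inst]; exact .beta _ _ _
  | appL N _ ih => exact .appL _ ih

/-- Standard reductions. -/
inductive St : Tm S → Tm S → Prop where
  | var {M : Tm S} {i : ℕ} : Relation.ReflTransGen Wh M (Tm.var i) → St M (Tm.var i)
  | sort {M : Tm S} {s : S} : Relation.ReflTransGen Wh M (Tm.sort s) → St M (Tm.sort s)
  | app {M a b a' b' : Tm S} : Relation.ReflTransGen Wh M (Tm.app a b) →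
      St a a' → St b b' → St M (Tm.app a' b')
  | lam {M a b a' b' : Tm S} : Relation.ReflTransGen Wh M (Tm.lam a b) →
      St a a' → St b b' → St M (Tm.lam a' b')
  | pi {M a b a' b' : Tm S} : Relation.ReflTransGen Wh M (Tm.pi a b) →
      St a a' → St b b' → St M (Tm.pi a' b')

theorem St.refl (M : Tm S) : St M M := by
  induction M with
  | var n => exact .var .refl
  | sort s => exact .sort .refl
  | app M N h1 h2 => exact .app .refl h1 h2
  | lam M N h1 h2 => exact .lam .refl h1 h2
  | pi M N h1 h2 => exact .pi .refl h1 h2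

theorem St.pre {L M N : Tm S} (h : Relation.ReflTransGen Wh L M) (h' : St M N) : St L N := by
  cases h' with
  | var h2 => exact .var (h.trans h2)
  | sort h2 => exact .sort (h.trans h2)
  | app h2 a b => exact .app (h.trans h2) a b
  | lam h2 a b => exact .lam (h.trans h2) a b
  | pi h2 a b => exact .pi (h.trans h2) a b

theorem St.ren {L M : Tm S} (h : St L M) (f : ℕ → ℕ) : St (Tm.ren f L) (Tm.ren f M) := by
  induction h generalizing f with
  | var h => exact .var (h.lift (Tm.ren f) fun _ _ hh => hh.ren f)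
  | sort h => exact .sort (h.lift (Tm.ren f) fun _ _ hh => hh.ren f)
  | app h _ _ i1 i2 => exact .app (h.lift (Tm.ren f) fun _ _ hh => hh.ren f) (i1 f) (i2 f)
  | lam h _ _ i1 i2 => exact .lam (h.lift (Tm.ren f) fun _ _ hh => hh.ren f) (i1 f) (i2 (up f))
  | pi h _ _ i1 i2 => exact .pi (h.lift (Tm.ren f) fun _ _ hh => hh.ren f) (i1 f) (i2 (up f))

theorem St.sub {L M : Tm S} (h : St L M) : ∀ {σ τ : ℕ → Tm S},
    (∀ i, St (σ i) (τ i)) → St (Tm.sub σ L) (Tm.sub τ M) := by
  induction h with
  | var h => intro σ τ hs; exact .pre (h.lift (Tm.sub σ) fun _ _ hh => hh.sub σ) (hs _)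
  | sort h => intro σ τ _; exact .sort (h.lift (Tm.sub σ) fun _ _ hh => hh.sub σ)
  | app h _ _ i1 i2 =>
    intro σ τ hs
    exact .app (h.lift (Tm.sub σ) fun _ _ hh => hh.sub σ) (i1 hs) (i2 hs)
  | lam h _ _ i1 i2 =>
    intro σ τ hs
    refine .lam (h.lift (Tm.sub σ) fun _ _ hh => hh.sub σ) (i1 hs) (i2 fun i => ?_)
    cases i
    · exact St.refl _
    · exact (hs _).ren _
  | pi h _ _ i1 i2 =>
    intro σ τ hs
    refine .pi (h.lift (Tm.sub σ) fun _ _ hh => hh.sub σ) (i1 hs) (i2 fun i => ?_)
    cases i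
    · exact St.refl _
    · exact (hs _).ren _

theorem St.step {M N : Tm S} (hs : Step M N) : ∀ {L : Tm S}, St L M → St L N := by
  induction hs with
  | beta A M N =>
    intro L h
    cases h with
    | app h ha hb =>
      cases ha with
      | lam h' hA hM =>
        refine .pre ((h.trans (h'.lift (fun x => Tm.app x _) fun _ _ hh => Wh.appL _ hh)).tail
          (.beta _ _ _)) (hM.sub fun i => ?_)
        cases i
        · exact hb
        · exact St.refl _
  | appL N _ ih => intro L h; cases h with | app h a b => exact .app h (ih a) b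
  | appR M _ ih => intro L h; cases h with | app h a b => exact .app h a (ih b)
  | lamA M _ ih => intro L h; cases h with | lam h a b => exact .lam h (ih a) b
  | lamM A _ ih => intro L h; cases h with | lam h a b => exact .lam h a (ih b)
  | piA B _ ih => intro L h; cases h with | pi h a b => exact .pi h (ih a) b
  | piB A _ ih => intro L h; cases h with | pi h a b => exact .pi h a (ih b)

/-- Weak normalization by leftmost reduction, with a size. -/
inductive Norm : ℕ → Tm S → Prop where
  | var (n i : ℕ) : Norm (n + 1) (Tm.var i)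
  | sort (n : ℕ) (s : S) : Norm (n + 1) (Tm.sort s)
  | app {n : ℕ} {M N : Tm S} : Neut M → Norm n M → Norm n N → Norm (n + 1) (Tm.app M N)
  | lam {n : ℕ} {A M : Tm S} : Norm n A → Norm n M → Norm (n + 1) (Tm.lam A M)
  | pi {n : ℕ} {A M : Tm S} : Norm n A → Norm n M → Norm (n + 1) (Tm.pi A M)
  | wh {n : ℕ} {M M' : Tm S} : Wh M M' → Norm n M' → Norm (n + 1) M

theorem Norm.mono {n : ℕ} {M : Tm S} (h : Norm n M) : ∀ {m}, n ≤ m → Norm m M := by
  induction h with
  | var n i => intro m hm; obtain ⟨k, rfl⟩ : ∃ k, m = k + 1 := ⟨m - 1, by omega⟩; exact .var _ _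
  | sort n i => intro m hm; obtain ⟨k, rfl⟩ : ∃ k, m = k + 1 := ⟨m - 1, by omega⟩; exact .sort _ _
  | app hn _ _ i1 i2 =>
    intro m hm; obtain ⟨k, rfl⟩ : ∃ k, m = k + 1 := ⟨m - 1, by omega⟩
    exact .app hn (i1 (by omega)) (i2 (by omega))
  | lam _ _ i1 i2 =>
    intro m hm; obtain ⟨k, rfl⟩ : ∃ k, m = k + 1 := ⟨m - 1, by omega⟩
    exact .lam (i1 (by omega)) (i2 (by omega))
  | pi _ _ i1 i2 =>
    intro m hm; obtain ⟨k, rfl⟩ : ∃ k, m = k + 1 := ⟨m - 1, by omega⟩
    exact .pi (i1 (by omega)) (i2 (by omega))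
  | wh hw _ ih =>
    intro m hm; obtain ⟨k, rfl⟩ : ∃ k, m = k + 1 := ⟨m - 1, by omega⟩
    exact .wh hw (ih (by omega))

theorem Norm.wh_inv {n : ℕ} {M M' : Tm S} (h : Norm n M) (hw : Wh M M') :
    ∃ m, m < n ∧ Norm m M' := by
  cases h with
  | var => cases hw
  | sort => cases hw
  | app hn _ _ => exact absurd (Neut.app _ hn) hw.not_neut
  | lam => cases hw
  | pi => cases hw
  | wh hw' h' => rw [hw.det hw']; exact ⟨_, Nat.lt_succ_self _, h'⟩

theorem Norm.app_inv {n : ℕ} {M N : Tm S} (h : Norm n (Tm.app M N)) (hn : Neut M) :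
    ∃ m, m < n ∧ Norm m M ∧ Norm m N := by
  cases h with
  | app _ h1 h2 => exact ⟨_, Nat.lt_succ_self _, h1, h2⟩
  | wh hw _ => exact absurd (Neut.app _ hn) hw.not_neut

theorem Norm.lam_inv {n : ℕ} {A M : Tm S} (h : Norm n (Tm.lam A M)) :
    ∃ m, m < n ∧ Norm m M := by
  cases h with
  | lam _ h2 => exact ⟨_, Nat.lt_succ_self _, h2⟩
  | wh hw _ => cases hw

theorem Norm.of_whs {M M' : Tm S} (hw : Relation.ReflTransGen Wh M M') {n : ℕ}
    (h : Norm n M') : ∃ m, Norm m M := by
  induction hw using Relation.ReflTransGen.head_induction_on with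
  | refl => exact ⟨n, h⟩
  | head hw _ ih => obtain ⟨m, hm⟩ := ih; exact ⟨_, .wh hw hm⟩

theorem Neut.of_normal {M N : Tm S} (h : Normal (Tm.app M N)) : Neut (Tm.app M N) := by
  induction M generalizing N with
  | var i => exact .app _ (.var i)
  | sort s => exact .app _ (.sort s)
  | app M1 M2 ih _ => exact .app _ (ih fun X hX => h _ (.appL _ hX))
  | lam A M1 _ _ => exact absurd (Step.beta A M1 N) (h _)
  | pi A B _ _ => exact .app _ (.pi A B)

theorem St.norm {M u : Tm S} (h : St M u) (hu : Normal u) :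
    ∃ M', Relation.ReflTransGen Wh M M' ∧ (Neut u → Neut M') ∧ ∃ n, Norm n M' := by
  induction h with
  | var h => exact ⟨_, h, fun _ => .var _, 1, .var _ _⟩
  | sort h => exact ⟨_, h, fun _ => .sort _, 1, .sort _ _⟩
  | @app M a b a' b' h _ _ i1 i2 =>
    obtain ⟨a1, w1, n1, k, hk⟩ := i1 fun X hX => hu _ (.appL _ hX)
    obtain ⟨b1, w2, _, l, hl⟩ := i2 fun X hX => hu _ (.appR _ hX)
    obtain ⟨l', hl'⟩ := hl.of_whs w2
    have hn : Neut a1 := by
      cases Neut.of_normal hu with | app _ h => exact n1 h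
    exact ⟨_, h.trans (w1.lift (fun x => Tm.app x _) fun _ _ hh => Wh.appL _ hh),
      fun _ => .app _ hn, max k l' + 1,
      .app hn (hk.mono (Nat.le_max_left _ _)) (hl'.mono (Nat.le_max_right _ _))⟩
  | @lam M a b a' b' h _ _ i1 i2 =>
    obtain ⟨a1, w1, _, k, hk⟩ := i1 fun X hX => hu _ (.lamA _ hX)
    obtain ⟨b1, w2, _, l, hl⟩ := i2 fun X hX => hu _ (.lamM _ hX)
    obtain ⟨k', hk'⟩ := hk.of_whs w1
    obtain ⟨l', hl'⟩ := hl.of_whs w2
    exact ⟨_, h, fun hn => (nomatch hn), max k' l' + 1,
      .lam (hk'.mono (Nat.le_max_left _ _)) (hl'.mono (Nat.le_max_right _ _))⟩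
  | @pi M a b a' b' h _ _ i1 i2 =>
    obtain ⟨a1, w1, _, k, hk⟩ := i1 fun X hX => hu _ (.piA _ hX)
    obtain ⟨b1, w2, _, l, hl⟩ := i2 fun X hX => hu _ (.piB _ hX)
    obtain ⟨k', hk'⟩ := hk.of_whs w1
    obtain ⟨l', hl'⟩ := hl.of_whs w2
    exact ⟨_, h, fun _ => .pi _ _, max k' l' + 1,
      .pi (hk'.mono (Nat.le_max_left _ _)) (hl'.mono (Nat.le_max_right _ _))⟩

theorem Tm.WNTm.norm {M : Tm S} (h : WNTm M) : ∃ n, Norm n M := by
  obtain ⟨u, hu, hn⟩ := h
  have hst : St M u := by
    clear hn
    induction hu with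
    | refl => exact St.refl _
    | tail _ hs ih => exact ih.step hs
  obtain ⟨M', hw, _, n, hN⟩ := hst.norm hn
  exact hN.of_whs hw

end Vale.Agent.P340
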