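import Vale.Agent.P340.Norm

namespace Vale.Agent.P340

open Tm

variable {S T : Type*}

/-- What a target variable stands for. -/
inductive Role where
  | thk (n : ℕ)
  | cst
  | tok
  | blank

/-- Apply a renaming of source variables to a role. -/
def Role.mapThk (g : ℕ → ℕ) : Role → Role
  | .thk n => .thk (g n)
  | r => r

/-- Forget memory tokens. -/
def Role.clear : Role → Role
  | .tok => .blank
  | r => r

/-- Roles under the two binders that replace one source binder. -/
def upB (ρ : ℕ → Role) : ℕ → Role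
  | 0 => .thk 0
  | 1 => .blank
  | i + 2 => (ρ i).mapThk Nat.succ

/-- Roles under the binder of a thunk. -/
def upT (ρ : ℕ → Role) : ℕ → Role
  | 0 => .tok
  | i + 1 => (ρ i).clear

/-- A spine headed by a constant. -/
inductive CSp (ρ : ℕ → Role) : Tm T → Prop where
  | var {i : ℕ} : ρ i = .cst → CSp ρ (Tm.var i)
  | app {X : Tm T} (a : Tm T) : CSp ρ X → CSp ρ (Tm.app X a)

theorem CSp.neut {ρ : ℕ → Role} {X : Tm T} (h : CSp ρ X) : Neut X := by
  induction h with
  | var _ => exact .var _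
  | app a _ ih => exact .app _ ih

/-- Retained items, shifted by one. -/
def shItems (K : List (Option (Tm S))) : List (Option (Tm S)) := K.map (Option.map sh)

/-- `Sim ρ t M K`: the target term `t` simulates the source subject `M` (if there is one) and
retains the source expressions in `K`; `none` in `K` is the memory token. -/
inductive Sim : (ℕ → Role) → Tm T → Option (Tm S) → List (Option (Tm S)) → Prop where
  | tok {ρ : ℕ → Role} {i : ℕ} : ρ i = .tok → Sim ρ (Tm.var i) none [none]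
  | nil (ρ : ℕ → Role) (m : Tm T) : Sim ρ m none []
  | srt (ρ : ℕ → Role) (m : Tm T) (s : S) : Sim ρ m none [some (Tm.sort s)]
  | join {ρ : ℕ → Role} {X m1 m2 : Tm T} {K1 K2 : List (Option (Tm S))} :
      CSp ρ X → Sim ρ m1 none K1 → Sim ρ m2 none K2 →
      Sim ρ (Tm.app (Tm.app X m1) m2) none (K1 ++ K2)
  | keep {ρ : ℕ → Role} {X o b : Tm T} {N : Tm S} :
      CSp ρ X → Sim (upT ρ) b (some N) [none] →
      Sim ρ (Tm.app X (Tm.lam o b)) none [some N]
  | keepVar {ρ : ℕ → Role} {X : Tm T} {i n : ℕ} :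
      CSp ρ X → ρ i = .thk n → Sim ρ (Tm.app X (Tm.var i)) none [some (Tm.var n)]
  | mpi {ρ : ℕ → Role} {X m a b body : Tm T} {A B : Tm S} :
      CSp ρ X → Sim ρ m none [some A] → Sim (upB ρ) body none [some B] →
      Sim ρ (Tm.app (Tm.app X m) (Tm.lam a (Tm.lam b body))) none [some (Tm.pi A B)]
  | leafVar {ρ : ℕ → Role} {i n : ℕ} {m : Tm T} {K : List (Option (Tm S))} :
      ρ i = .thk n → Sim ρ m none K → Sim ρ (Tm.app (Tm.var i) m) (some (Tm.var n)) K
  | leafThk {ρ : ℕ → Role} {o b m : Tm T} {N : Tm S} {K : List (Option (Tm S))} :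
      Sim ρ m none K → Sim (upT ρ) b (some N) [none] →
      Sim ρ (Tm.app (Tm.lam o b) m) (some N) K
  | leafSort {ρ : ℕ → Role} {X m : Tm T} {K : List (Option (Tm S))} (s : S) :
      CSp ρ X → Sim ρ m none K → Sim ρ (Tm.app X m) (some (Tm.sort s)) K
  | leafPi {ρ : ℕ → Role} {X m : Tm T} {K : List (Option (Tm S))} {A B : Tm S} :
      CSp ρ X → Sim ρ m none (K ++ [some (Tm.pi A B)]) →
      Sim ρ (Tm.app X m) (some (Tm.pi A B)) K
  | app {ρ : ℕ → Role} {t d o b : Tm T} {M N : Tm S} {K : List (Option (Tm S))} :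
      Sim ρ t (some M) K → Sim (upT ρ) b (some N) [none] →
      Sim ρ (Tm.app (Tm.app t d) (Tm.lam o b)) (some (Tm.app M N)) K
  | lam {ρ : ℕ → Role} {a b body : Tm T} {A P B : Tm S} {K : List (Option (Tm S))} :
      Sim (upB ρ) body (some P)
        (shItems K ++ [some (sh (Tm.pi A B)), some (Tm.var 0)]) →
      Sim ρ (Tm.lam a (Tm.lam b body)) (some (Tm.lam A P)) K

/-- A renaming of the target compatible with a renaming `g` of the source. -/
def RenOK (ρ ρ' : ℕ → Role) (f g : ℕ → ℕ) : Prop :=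
  ∀ i, ρ i ≠ .blank → ρ' (f i) = (ρ i).mapThk g

theorem RenOK.upB {ρ ρ' : ℕ → Role} {f g : ℕ → ℕ} (h : RenOK ρ ρ' f g) :
    RenOK (upB ρ) (upB ρ') (up (up f)) (up g) := by
  intro i hi
  match i with
  | 0 => rfl
  | 1 => exact absurd rfl hi
  | i + 2 =>
    have hne : ρ i ≠ .blank := by
      intro he; apply hi; simp [Vale.Agent.P340.upB, he, Role.mapThk]
    simp only [Vale.Agent.P340.upB, Tm.up, h i hne]
    cases ρ i <;> simp [Role.mapThk, Tm.up]

theorem RenOK.upT {ρ ρ' : ℕ → Role} {f g : ℕ → ℕ} (h : RenOK ρ ρ' f g) :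
    RenOK (upT ρ) (upT ρ') (up f) g := by
  intro i hi
  match i with
  | 0 => rfl
  | i + 1 =>
    have hne : ρ i ≠ .blank := by
      intro he; apply hi; simp [Vale.Agent.P340.upT, he, Role.clear]
    simp only [Vale.Agent.P340.upT, Tm.up, h i hne]
    cases ρ i <;> simp [Role.mapThk, Role.clear]

theorem CSp.ren {ρ ρ' : ℕ → Role} {f g : ℕ → ℕ} (h : RenOK ρ ρ' f g) {X : Tm T}
    (hX : CSp ρ X) : CSp ρ' (Tm.ren f X) := by
  induction hX with
  | @var i hi => exact .var (by rw [h i (by simp [hi]), hi]; rfl)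
  | app a _ ih => exact .app _ ih

theorem map_shItems (g : ℕ → ℕ) (K : List (Option (Tm S))) :
    (shItems K).map (Option.map (Tm.ren (up g))) = shItems (K.map (Option.map (Tm.ren g))) := by
  simp only [shItems, List.map_map]
  refine List.map_congr_left fun k _ => ?_
  cases k <;> simp [ren_sh]

theorem Sim.ren {ρ : ℕ → Role} {t : Tm T} {M : Option (Tm S)} {K : List (Option (Tm S))}
    (hs : Sim ρ t M K) : ∀ {ρ' : ℕ → Role} {f g : ℕ → ℕ}, RenOK ρ ρ' f g →
      Sim ρ' (Tm.ren f t) (M.map (Tm.ren g)) (K.map (Option.map (Tm.ren g))) := by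
  induction hs with
  | @tok ρ i hi =>
    intro ρ' f g h; exact .tok (by rw [h i (by simp [hi]), hi]; rfl)
  | nil ρ m => intro ρ' f g _; exact .nil _ _
  | srt ρ m s => intro ρ' f g _; exact .srt _ _ s
  | join hX _ _ i1 i2 =>
    intro ρ' f g h; rw [List.map_append]; exact .join (hX.ren h) (i1 h) (i2 h)
  | keep hX _ ih => intro ρ' f g h; exact .keep (hX.ren h) (ih h.upT)
  | @keepVar ρ X i n hX hi =>
    intro ρ' f g h; exact .keepVar (hX.ren h) (by rw [h i (by simp [hi]), hi]; rfl)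
  | mpi hX _ _ i1 i2 => intro ρ' f g h; exact .mpi (hX.ren h) (i1 h) (i2 h.upB)
  | @leafVar ρ i n m K hi _ ih =>
    intro ρ' f g h; exact .leafVar (by rw [h i (by simp [hi]), hi]; rfl) (ih h)
  | leafThk _ _ i1 i2 => intro ρ' f g h; exact .leafThk (i1 h) (i2 h.upT)
  | leafSort s hX _ ih => intro ρ' f g h; exact .leafSort s (hX.ren h) (ih h)
  | leafPi hX _ ih =>
    intro ρ' f g h
    refine .leafPi (hX.ren h) ?_
    have := ih h
    rw [List.map_append] at this
    exact this
  | app _ _ i1 i2 => intro ρ' f g h; exact .app (i1 h) (i2 h.upT)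
  | @lam ρ a b body A P B K _ ih =>
    intro ρ' f g h
    refine .lam (B := Tm.ren (up g) B) ?_
    have := ih h.upB
    rw [List.map_append, map_shItems] at this
    simpa [ren_sh, Tm.ren, Tm.up] using this

/-- What to substitute for the items under a substitution. -/
def flItem (σ : ℕ → Tm S) (K₀ : List (Option (Tm S))) :
    Option (Tm S) → List (Option (Tm S))
  | none => K₀
  | some k => [some (Tm.sub σ k)]

/-- Items after a substitution. -/
def fl (σ : ℕ → Tm S) (K₀ K : List (Option (Tm S))) : List (Option (Tm S)) :=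
  K.flatMap (flItem σ K₀)

/-- A target substitution compatible with a source substitution. -/
structure SubOK (ρ ρ' : ℕ → Role) (τ : ℕ → Tm T) (σ : ℕ → Tm S)
    (K₀ : List (Option (Tm S))) : Prop where
  thk : ∀ i n, ρ i = .thk n →
    (∃ j m, τ i = Tm.var j ∧ ρ' j = .thk m ∧ σ n = Tm.var m) ∨
      ∃ o b, τ i = Tm.lam o b ∧ Sim (Vale.Agent.P340.upT ρ') b (some (σ n)) [none]
  cst : ∀ i, ρ i = .cst → ∃ j, τ i = Tm.var j ∧ ρ' j = .cst
  tok : ∀ i, ρ i = .tok → Sim ρ' (τ i) none K₀

theorem SubOK.upT {ρ ρ' : ℕ → Role} {τ : ℕ → Tm T} {σ : ℕ → Tm S}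
    {K₀ : List (Option (Tm S))} (h : SubOK ρ ρ' τ σ K₀) :
    SubOK (Vale.Agent.P340.upT ρ) (Vale.Agent.P340.upT ρ') (ups τ) σ [none] := by
  refine ⟨fun i n hi => ?_, fun i hi => ?_, fun i hi => ?_⟩
  · match i with
    | 0 => exact absurd hi (by simp [Vale.Agent.P340.upT])
    | i + 1 =>
      have hi' : ρ i = .thk n := by
        revert hi; simp only [Vale.Agent.P340.upT]; cases ρ i <;> simp [Role.clear]
      rcases h.thk i n hi' with ⟨j, m, h1, h2, h3⟩ | ⟨o, b, h1, h2⟩
      · exact .inl ⟨j + 1, m, by simp [ups, h1, sh, Tm.ren],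
          by simp [Vale.Agent.P340.upT, h2, Role.clear], h3⟩
      · refine .inr ⟨sh o, Tm.ren (up Nat.succ) b, by simp [ups, h1, sh, Tm.ren], ?_⟩
        have := h2.ren (ρ' := Vale.Agent.P340.upT (Vale.Agent.P340.upT ρ')) (f := up Nat.succ)
          (g := id) (fun k hk => by
            match k with
            | 0 => rfl
            | k + 1 =>
              simp only [Vale.Agent.P340.upT, Tm.up]
              cases ρ' k <;> simp [Role.clear, Role.mapThk])
        simpa [ren_id] using this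
  · match i with
    | 0 => exact absurd hi (by simp [Vale.Agent.P340.upT])
    | i + 1 =>
      have hi' : ρ i = .cst := by
        revert hi; simp only [Vale.Agent.P340.upT]; cases ρ i <;> simp [Role.clear]
      obtain ⟨j, h1, h2⟩ := h.cst i hi'
      exact ⟨j + 1, by simp [ups, h1, sh, Tm.ren], by simp [Vale.Agent.P340.upT, h2, Role.clear]⟩
  · match i with
    | 0 => exact .tok rfl
    | i + 1 =>
      revert hi; simp only [Vale.Agent.P340.upT]; cases ρ i <;> simp [Role.clear]

theorem renOK_shift2 (ρ : ℕ → Role) :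
    RenOK ρ (upB ρ) (Nat.succ ∘ Nat.succ) Nat.succ := fun _ _ => rfl

theorem SubOK.upB {ρ ρ' : ℕ → Role} {τ : ℕ → Tm T} {σ : ℕ → Tm S}
    {K₀ : List (Option (Tm S))} (h : SubOK ρ ρ' τ σ K₀) :
    SubOK (Vale.Agent.P340.upB ρ) (Vale.Agent.P340.upB ρ') (ups (ups τ)) (ups σ)
      (shItems K₀) := by
  refine ⟨fun i n hi => ?_, fun i hi => ?_, fun i hi => ?_⟩
  · match i with
    | 0 =>
      obtain rfl : 0 = n := by simpa [Vale.Agent.P340.upB] using hi
      exact .inl ⟨0, 0, rfl, rfl, rfl⟩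
    | 1 => exact absurd hi (by simp [Vale.Agent.P340.upB])
    | i + 2 =>
      obtain ⟨n', hi', rfl⟩ : ∃ n', ρ i = .thk n' ∧ n' + 1 = n := by
        revert hi; simp only [Vale.Agent.P340.upB]; cases ρ i <;> simp [Role.mapThk]
      rcases h.thk i n' hi' with ⟨j, m, h1, h2, h3⟩ | ⟨o, b, h1, h2⟩
      · exact .inl ⟨j + 2, m + 1, by simp [ups, h1, sh, Tm.ren],
          by simp [Vale.Agent.P340.upB, h2, Role.mapThk], by simp [ups, h3, sh, Tm.ren]⟩
      · refine .inr ⟨sh (sh o), Tm.ren (up (Nat.succ ∘ Nat.succ)) b, ?_, ?_⟩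
        · simp [ups, h1, sh, Tm.ren, ren_ren, up_comp]
        · exact h2.ren (renOK_shift2 ρ').upT
  · match i with
    | 0 => exact absurd hi (by simp [Vale.Agent.P340.upB])
    | 1 => exact absurd hi (by simp [Vale.Agent.P340.upB])
    | i + 2 =>
      have hi' : ρ i = .cst := by
        revert hi; simp only [Vale.Agent.P340.upB]; cases ρ i <;> simp [Role.mapThk]
      obtain ⟨j, h1, h2⟩ := h.cst i hi'
      exact ⟨j + 2, by simp [ups, h1, sh, Tm.ren],
        by simp [Vale.Agent.P340.upB, h2, Role.mapThk]⟩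
  · match i with
    | 0 => exact absurd hi (by simp [Vale.Agent.P340.upB])
    | 1 => exact absurd hi (by simp [Vale.Agent.P340.upB])
    | i + 2 =>
      have hi' : ρ i = .tok := by
        revert hi; simp only [Vale.Agent.P340.upB]; cases ρ i <;> simp [Role.mapThk]
      have := (h.tok i hi').ren (renOK_shift2 ρ')
      simp only [ups, sh, ren_ren]
      exact this

theorem CSp.sub {ρ ρ' : ℕ → Role} {τ : ℕ → Tm T} {σ : ℕ → Tm S}
    {K₀ : List (Option (Tm S))} (h : SubOK ρ ρ' τ σ K₀) {X : Tm T}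
    (hX : CSp ρ X) : CSp ρ' (Tm.sub τ X) := by
  induction hX with
  | @var i hi => obtain ⟨j, h1, h2⟩ := h.cst i hi; rw [Tm.sub, h1]; exact .var h2
  | app a _ ih => exact .app _ ih

theorem fl_shItems (σ : ℕ → Tm S) (K₀ K : List (Option (Tm S))) :
    fl (ups σ) (shItems K₀) (shItems K) = shItems (fl σ K₀ K) := by
  induction K with
  | nil => rfl
  | cons k K ih =>
    cases k with
    | none =>
      simp only [fl, shItems, List.map_cons, List.flatMap_cons, List.map_append] at ih ⊢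
      rw [ih]; rfl
    | some k =>
      simp only [fl, shItems, List.map_cons, List.flatMap_cons, List.map_append] at ih ⊢
      rw [ih]; simp [flItem, sub_sh]

theorem Sim.subst {ρ : ℕ → Role} {t : Tm T} {M : Option (Tm S)} {K : List (Option (Tm S))}
    (hs : Sim ρ t M K) : ∀ {ρ' : ℕ → Role} {τ : ℕ → Tm T} {σ : ℕ → Tm S}
      {K₀ : List (Option (Tm S))}, SubOK ρ ρ' τ σ K₀ →
      Sim ρ' (Tm.sub τ t) (M.map (Tm.sub σ)) (fl σ K₀ K) := by
  induction hs with
  | @tok ρ i hi =>
    intro ρ' τ σ K₀ h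
    simp only [fl, List.flatMap_cons, List.flatMap_nil, flItem, List.append_nil]
    exact h.tok i hi
  | nil ρ m => intro ρ' τ σ K₀ _; exact .nil _ _
  | srt ρ m s => intro ρ' τ σ K₀ _; exact .srt _ _ s
  | join hX _ _ i1 i2 =>
    intro ρ' τ σ K₀ h
    simp only [fl, List.flatMap_append]
    exact .join (hX.sub h) (i1 h) (i2 h)
  | keep hX _ ih =>
    intro ρ' τ σ K₀ h
    exact .keep (hX.sub h) (by simpa [fl, flItem] using ih h.upT)
  | @keepVar ρ X i n hX hi =>
    intro ρ' τ σ K₀ h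
    rcases h.thk i n hi with ⟨j, m, h1, h2, h3⟩ | ⟨o, b, h1, h2⟩
    · simp only [Tm.sub, h1, fl, List.flatMap_cons, List.flatMap_nil, flItem, List.append_nil, h3]
      exact .keepVar (hX.sub h) h2
    · simp only [Tm.sub, h1, fl, List.flatMap_cons, List.flatMap_nil, flItem, List.append_nil]
      exact .keep (hX.sub h) h2
  | mpi hX _ _ i1 i2 =>
    intro ρ' τ σ K₀ h
    exact .mpi (hX.sub h) (i1 h) (i2 h.upB)
  | @leafVar ρ i n m K hi _ ih =>
    intro ρ' τ σ K₀ h
    rcases h.thk i n hi with ⟨j, m', h1, h2, h3⟩ | ⟨o, b, h1, h2⟩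
    · simp only [Option.map_some, Tm.sub, h1, h3]
      exact .leafVar h2 (ih h)
    · simp only [Option.map_some, Tm.sub, h1]
      exact .leafThk (ih h) h2
  | leafThk _ _ i1 i2 =>
    intro ρ' τ σ K₀ h
    exact .leafThk (i1 h) (by simpa [fl, flItem] using i2 h.upT)
  | leafSort s hX _ ih => intro ρ' τ σ K₀ h; exact .leafSort s (hX.sub h) (ih h)
  | @leafPi ρ X m K A B hX _ ih =>
    intro ρ' τ σ K₀ h
    refine .leafPi (hX.sub h) ?_
    have := ih h
    rw [fl, List.flatMap_append] at this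
    simpa [flItem, fl, Tm.sub] using this
  | app _ _ i1 i2 =>
    intro ρ' τ σ K₀ h
    exact .app (i1 h) (by simpa [fl, flItem] using i2 h.upT)
  | @lam ρ a b body A P B K _ ih =>
    intro ρ' τ σ K₀ h
    refine .lam (B := Tm.sub (ups σ) B) ?_
    have := ih h.upB
    rw [fl, List.flatMap_append] at this
    rw [← fl_shItems]
    simpa [flItem, sub_sh, Tm.sub, ups, fl] using this

end Vale.Agent.P340
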