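import Vale.Agent.P340.Sim

namespace Vale.Agent.P340

open Tm

variable {S T : Type*}

/-- A padded argument: `d` is the plain copy, `lam o b` the thunk, `N` the source argument. -/
structure Frame (S T : Type*) where
  d : Tm T
  o : Tm T
  b : Tm T
  N : Tm S

/-- Apply a target term to the padded arguments. -/
def tapps : Tm T → List (Frame S T) → Tm T
  | t, [] => t
  | t, r :: R => tapps (Tm.app (Tm.app t r.d) (Tm.lam r.o r.b)) R

theorem tapps_wh {t t' : Tm T} (h : Wh t t') (R : List (Frame S T)) :
    Wh (tapps t R) (tapps t' R) := by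
  induction R generalizing t t' with
  | nil => exact h
  | cons r R ih => exact ih (.appL _ (.appL _ h))

theorem Norm.tapps_inv {t : Tm T} (ht : Neut t) (R : List (Frame S T)) :
    ∀ {n : ℕ}, Norm n (tapps t R) →
      (∃ m, m ≤ n ∧ Norm m t) ∧ ∀ r ∈ R, ∃ m, m < n ∧ Norm m r.b := by
  induction R generalizing t with
  | nil => intro n h; exact ⟨⟨n, Nat.le_refl n, h⟩, by simp⟩
  | cons r R ih =>
    intro n h
    obtain ⟨⟨m, hm, hN⟩, hR⟩ := ih (Neut.app _ (Neut.app _ ht)) h
    obtain ⟨m1, hm1, hA, hB⟩ := hN.app_inv (Neut.app _ ht)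
    obtain ⟨m2, hm2, hT, -⟩ := hA.app_inv ht
    obtain ⟨m3, hm3, hb⟩ := hB.lam_inv
    refine ⟨⟨m2, by omega, hT⟩, fun x hx => ?_⟩
    rcases List.mem_cons.1 hx with rfl | hx
    · exact ⟨m3, by omega, hb⟩
    · exact hR x hx

/-- The substitution of the two binders of a contracted redex. -/
def pairSub (d th : Tm T) : ℕ → Tm T
  | 0 => th
  | 1 => d
  | i + 2 => Tm.var i

theorem inst_inst (body d th : Tm T) :
    inst (Tm.sub (ups (single d)) body) th = Tm.sub (pairSub d th) body := by
  rw [inst, sub_sub]
  apply sub_ext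
  intro i
  match i with
  | 0 => rfl
  | 1 => simp [ups, single, pairSub]; exact inst_sh d th
  | i + 2 => simp [ups, single, pairSub, sh, Tm.ren, Tm.sub]

theorem fl_sh_single (Q : Tm S) (K : List (Option (Tm S))) :
    fl (single Q) [none] (shItems K) = K := by
  induction K with
  | nil => rfl
  | cons k K ih =>
    simp only [fl, shItems, List.map_cons, List.flatMap_cons] at ih ⊢
    cases k with
    | none => simp [flItem, ih]
    | some k => simp [flItem, ih]; exact inst_sh k Q

theorem fl_id (K K₀ : List (Option (Tm S))) :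
    fl Tm.var K₀ (K ++ [none]) = fl Tm.var K₀ K ++ K₀ := by
  simp [fl, flItem]

/-- The conclusion proved about a simulated subject and its retained items. -/
def Good (M : Option (Tm S)) (Ns : List (Tm S)) (K : List (Option (Tm S))) : Prop :=
  (∀ N, M = some N → SAcc (apps N Ns)) ∧ ∀ k, some k ∈ K → SAcc k

theorem Sim.goodAux (n : ℕ) : ∀ {ρ : ℕ → Role} {t : Tm T} {M : Option (Tm S)}
    {K : List (Option (Tm S))}, Sim ρ t M K → ∀ R : List (Frame S T),
      (∀ r ∈ R, Sim (upT ρ) r.b (some r.N) [none]) → (M = none → R = []) →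
      Norm n (tapps t R) → Good M (R.map Frame.N) K := by
  induction n using Nat.strongRecOn with
  | ind n IH =>
  have self : ∀ {m : ℕ}, m < n → ∀ {ρ : ℕ → Role} {t : Tm T} {M : Option (Tm S)}
      {K : List (Option (Tm S))}, Sim ρ t M K → Norm m t → Good M [] K :=
    fun {m} hm {ρ t M K} hs hN => IH _ hm hs [] (by simp) (fun _ => rfl) hN
  have args : ∀ {ρ : ℕ → Role} (R : List (Frame S T)),
      (∀ r ∈ R, Sim (upT ρ) r.b (some r.N) [none]) →
      (∀ r ∈ R, ∃ m, m < n ∧ Norm m r.b) → ∀ N ∈ R.map Frame.N, SAcc N := by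
    intro ρ R hR hb N hN
    obtain ⟨r, hr, rfl⟩ := List.mem_map.1 hN
    obtain ⟨m, hm, hNm⟩ := hb r hr
    exact (self hm (hR r hr) hNm).1 _ rfl
  intro ρ t M K hs
  induction hs with
  | tok _ => intro R _ _ _; exact ⟨fun N h => by simp at h, fun k hk => by simp at hk⟩
  | nil ρ m => intro R _ _ _; exact ⟨fun N h => by simp at h, fun k hk => by simp at hk⟩
  | srt ρ m s =>
    intro R _ _ _
    refine ⟨fun N h => by simp at h, fun k hk => ?_⟩
    simp at hk; subst hk; exact SAcc.sort s
  | @join ρ X m1 m2 K1 K2 hX h1 h2 _ _ =>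
    intro R _ hR hN
    obtain rfl := hR rfl
    obtain ⟨a, ha, hA, hB⟩ := hN.app_inv (.app _ hX.neut)
    obtain ⟨b, hb, -, hC⟩ := hA.app_inv hX.neut
    refine ⟨fun N h => by simp at h, fun k hk => ?_⟩
    rcases List.mem_append.1 hk with hk | hk
    · exact (self (by omega) h1 hC).2 k hk
    · exact (self ha h2 hB).2 k hk
  | @keep ρ X o b N hX hb' _ =>
    intro R _ hR hN
    obtain rfl := hR rfl
    obtain ⟨a, ha, -, hB⟩ := hN.app_inv hX.neut
    obtain ⟨c, hc, hC⟩ := hB.lam_inv
    refine ⟨fun N h => by simp at h, fun k hk => ?_⟩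
    simp at hk; subst hk
    exact (self (by omega) hb' hC).1 _ rfl
  | keepVar _ _ =>
    intro R _ _ _
    refine ⟨fun N h => by simp at h, fun k hk => ?_⟩
    simp at hk; subst hk; exact SAcc.var _
  | @mpi ρ X m a b body A B hX hm hbody _ _ =>
    intro R _ hR hN
    obtain rfl := hR rfl
    obtain ⟨n1, h1, hA', hB'⟩ := hN.app_inv (.app _ hX.neut)
    obtain ⟨n2, h2, -, hm'⟩ := hA'.app_inv hX.neut
    obtain ⟨n3, h3, hB''⟩ := hB'.lam_inv
    obtain ⟨n4, h4, hb''⟩ := hB''.lam_inv
    refine ⟨fun N h => by simp at h, fun k hk => ?_⟩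
    simp at hk; subst hk
    exact SAcc.pi ((self (by omega) hm hm').2 _ (by simp))
      ((self (by omega) hbody hb'').2 _ (by simp))
  | @leafVar ρ i j m K hi hm _ =>
    intro R hR _ hN
    obtain ⟨⟨a, ha, hA⟩, hb⟩ := Norm.tapps_inv (.app _ (.var i)) R hN
    obtain ⟨c, hc, -, hC⟩ := hA.app_inv (.var i)
    refine ⟨fun N h => ?_, (self (by omega) hm hC).2⟩
    cases h
    exact SAcc.apps (.var _) (SAcc.var _) (args R hR hb)
  | @leafThk ρ o b m N K hm hb _ _ =>
    intro R hR _ hN
    obtain ⟨a, ha, hA⟩ := hN.wh_inv (tapps_wh (Wh.beta o b m) R)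
    have hsub : Sim ρ (inst b m) (some N) K := by
      have := hb.subst (ρ' := ρ) (τ := single m) (σ := Tm.var) (K₀ := K)
        ⟨fun i j hij => by
          match i with
          | 0 => exact absurd hij (by simp [upT])
          | i + 1 =>
            refine .inl ⟨i, j, rfl, ?_, rfl⟩
            revert hij; simp only [upT]; cases ρ i <;> simp [Role.clear],
        fun i hij => by
          match i with
          | 0 => exact absurd hij (by simp [upT])
          | i + 1 =>
            refine ⟨i, rfl, ?_⟩
            revert hij; simp only [upT]; cases ρ i <;> simp [Role.clear],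
        fun i hij => by
          match i with
          | 0 => exact hm
          | i + 1 => revert hij; simp only [upT]; cases ρ i <;> simp [Role.clear]⟩
      simpa [fl, flItem, sub_var, inst] using this
    exact IH a ha hsub R hR (fun h => by simp at h) hA
  | @leafSort ρ X m K s hX hm _ =>
    intro R hR _ hN
    obtain ⟨⟨a, ha, hA⟩, hb⟩ := Norm.tapps_inv (.app _ hX.neut) R hN
    obtain ⟨c, hc, -, hC⟩ := hA.app_inv hX.neut
    refine ⟨fun N h => ?_, (self (by omega) hm hC).2⟩
    cases h
    exact SAcc.apps (.sort _) (SAcc.sort _) (args R hR hb)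
  | @leafPi ρ X m K A B hX hm _ =>
    intro R hR _ hN
    obtain ⟨⟨a, ha, hA⟩, hb⟩ := Norm.tapps_inv (.app _ hX.neut) R hN
    obtain ⟨c, hc, -, hC⟩ := hA.app_inv hX.neut
    have hK := (self (by omega) hm hC).2
    refine ⟨fun N h => ?_, fun k hk => hK k (List.mem_append_left _ hk)⟩
    cases h
    exact SAcc.apps (.pi _ _) (hK _ (by simp)) (args R hR hb)
  | @app ρ t d o b M N K _ hb ih _ =>
    intro R hR _ hN
    have := ih (⟨d, o, b, N⟩ :: R)
      (fun r hr => by
        rcases List.mem_cons.1 hr with rfl | hr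
        · exact hb
        · exact hR r hr)
      (fun h => by simp at h) hN
    refine ⟨fun X h => ?_, this.2⟩
    cases h
    exact this.1 M rfl
  | @lam ρ a b body A P B K hbody _ =>
    intro R hR _ hN
    match R with
    | [] =>
      obtain ⟨c, hc, hC⟩ := hN.lam_inv
      obtain ⟨e, he, hE⟩ := hC.lam_inv
      obtain ⟨hP, hK⟩ := self (by omega) hbody hE
      have hPi : SAcc (Tm.pi A B) := (hK _ (by simp)).of_sh
      refine ⟨fun X h => ?_, fun k hk => ?_⟩
      · cases h
        exact SAcc.lam hPi.of_pi.1 (hP _ rfl)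
      · exact (hK (sh k) (List.mem_append_left _
          (List.mem_map.2 ⟨some k, hk, rfl⟩))).of_sh
    | r :: R =>
      obtain ⟨c, hc, hC⟩ := hN.wh_inv
        (tapps_wh (Wh.appL _ (Wh.beta a (Tm.lam b body) r.d)) R)
      obtain ⟨e, he, hE⟩ := hC.wh_inv (tapps_wh (Wh.beta _ _ _) R)
      rw [inst_inst] at hE
      have hr : Sim (upT ρ) r.b (some r.N) [none] := hR r (by simp)
      have hsub : Sim ρ (Tm.sub (pairSub r.d (Tm.lam r.o r.b)) body)
          (some (inst P r.N)) (K ++ [some (Tm.pi A B), some r.N]) := by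
        have := hbody.subst (ρ' := ρ) (τ := pairSub r.d (Tm.lam r.o r.b))
          (σ := single r.N) (K₀ := [none])
          ⟨fun i j hij => by
            match i with
            | 0 =>
              obtain rfl : 0 = j := by simpa [upB] using hij
              exact .inr ⟨r.o, r.b, rfl, hr⟩
            | 1 => exact absurd hij (by simp [upB])
            | i + 2 =>
              obtain ⟨j', hj', rfl⟩ : ∃ j', ρ i = .thk j' ∧ j' + 1 = j := by
                revert hij; simp only [upB]; cases ρ i <;> simp [Role.mapThk]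
              exact .inl ⟨i, j', rfl, hj', rfl⟩,
          fun i hij => by
            match i with
            | 0 => exact absurd hij (by simp [upB])
            | 1 => exact absurd hij (by simp [upB])
            | i + 2 =>
              refine ⟨i, rfl, ?_⟩
              revert hij; simp only [upB]; cases ρ i <;> simp [Role.mapThk],
          fun i hij => by
            match i with
            | 0 => exact absurd hij (by simp [upB])
            | 1 => exact absurd hij (by simp [upB])
            | i + 2 =>
              refine .tok ?_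
              revert hij; simp only [upB]; cases ρ i <;> simp [Role.mapThk]⟩
        rw [fl, List.flatMap_append, ← fl, fl_sh_single] at this
        simpa [flItem, inst, Tm.sub, single, sub_ren, sh, sub_var, ups_var, Function.comp_def] using this
      obtain ⟨hP, hK⟩ := IH e (by omega) hsub R (fun x hx => hR x (by simp [hx]))
        (fun h => by simp at h) hE
      have hPi : SAcc (Tm.pi A B) := hK _ (by simp)
      refine ⟨fun X h => ?_, fun k hk => hK k (List.mem_append_left _ hk)⟩
      cases h
      exact SAcc.expand hPi.of_pi.1 (hK _ (by simp)) (hP _ rfl)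

/-- A weakly normalizing memory term retains only strongly normalizing expressions. -/
theorem Sim.retained {ρ : ℕ → Role} {t : Tm T} {M : Tm S} (hs : Sim ρ t none [some M])
    (hw : WNTm t) : SAcc M := by
  obtain ⟨n, hn⟩ := Tm.WNTm.norm hw
  exact (Sim.goodAux n hs [] (by simp) (fun _ => rfl) hn).2 M (by simp)

end Vale.Agent.P340
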