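import Mathlib.Logic.Relation
import Mathlib.Data.Nat.Notation
import Mathlib.Tactic.Common

namespace Vale.Agent.P340

universe u

/-- Expressions of a pure type system with sorts in `S`, in de Bruijn notation. -/
inductive Tm (S : Type u) : Type u where
  | var : ℕ → Tm S
  | sort : S → Tm S
  | app : Tm S → Tm S → Tm S
  | lam : Tm S → Tm S → Tm S
  | pi : Tm S → Tm S → Tm S

namespace Tm

variable {S : Type*}

/-- Lift a renaming under one binder. -/
def up (f : ℕ → ℕ) : ℕ → ℕ
  | 0 => 0
  | n + 1 => f n + 1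

/-- Renaming of variables. -/
def ren (f : ℕ → ℕ) : Tm S → Tm S
  | var n => var (f n)
  | sort s => sort s
  | app M N => app (ren f M) (ren f N)
  | lam A M => lam (ren f A) (ren (up f) M)
  | pi A B => pi (ren f A) (ren (up f) B)

/-- Shift all free variables by one. -/
def sh (M : Tm S) : Tm S := ren Nat.succ M

/-- Lift a substitution under one binder. -/
def ups (σ : ℕ → Tm S) : ℕ → Tm S
  | 0 => var 0
  | n + 1 => sh (σ n)

/-- Simultaneous substitution. -/
def sub (σ : ℕ → Tm S) : Tm S → Tm S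
  | var n => σ n
  | sort s => sort s
  | app M N => app (sub σ M) (sub σ N)
  | lam A M => lam (sub σ A) (sub (ups σ) M)
  | pi A B => pi (sub σ A) (sub (ups σ) B)

/-- The substitution replacing variable `0` by `N`. -/
def single (N : Tm S) : ℕ → Tm S
  | 0 => N
  | n + 1 => var n

/-- `inst M N` is `M[0 := N]`. -/
def inst (M N : Tm S) : Tm S := sub (single N) M

theorem ren_ext {f g : ℕ → ℕ} (h : ∀ n, f n = g n) (M : Tm S) : ren f M = ren g M := by
  rw [funext h]

theorem sub_ext {σ τ : ℕ → Tm S} (h : ∀ n, σ n = τ n) (M : Tm S) : sub σ M = sub τ M := by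
  rw [funext h]

theorem up_comp (f g : ℕ → ℕ) : up (g ∘ f) = up g ∘ up f := by
  funext n; cases n <;> rfl

theorem ren_ren (f g : ℕ → ℕ) (M : Tm S) : ren g (ren f M) = ren (g ∘ f) M := by
  induction M generalizing f g <;> simp_all [ren, up_comp]

theorem up_id : up (id : ℕ → ℕ) = id := by funext n; cases n <;> rfl

theorem ren_id (M : Tm S) : ren id M = M := by
  induction M <;> simp_all [ren, up_id]

theorem ren_sh (f : ℕ → ℕ) (M : Tm S) : ren (up f) (sh M) = sh (ren f M) := by
  simp only [sh, ren_ren]; rfl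

theorem ups_ren (σ : ℕ → Tm S) (f : ℕ → ℕ) : ups (σ ∘ f) = ups σ ∘ up f := by
  funext n; cases n <;> rfl

theorem sub_ren (f : ℕ → ℕ) (σ : ℕ → Tm S) (M : Tm S) : sub σ (ren f M) = sub (σ ∘ f) M := by
  induction M generalizing f σ <;> simp_all [ren, sub, ups_ren]

theorem ren_ups (σ : ℕ → Tm S) (g : ℕ → ℕ) : ups (ren g ∘ σ) = ren (up g) ∘ ups σ := by
  funext n; cases n
  · rfl
  · simp [ups, ren_sh]

theorem ren_sub (σ : ℕ → Tm S) (g : ℕ → ℕ) (M : Tm S) :
    ren g (sub σ M) = sub (ren g ∘ σ) M := by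
  induction M generalizing σ g <;> simp_all [ren, sub, ren_ups]

theorem sub_sh (σ : ℕ → Tm S) (M : Tm S) : sub (ups σ) (sh M) = sh (sub σ M) := by
  simp only [sh, sub_ren, ren_sub]; rfl

theorem ups_comp (σ τ : ℕ → Tm S) : ups (sub τ ∘ σ) = sub (ups τ) ∘ ups σ := by
  funext n; cases n
  · rfl
  · simp [ups, sub_sh]

theorem sub_sub (σ τ : ℕ → Tm S) (M : Tm S) : sub τ (sub σ M) = sub (sub τ ∘ σ) M := by
  induction M generalizing σ τ <;> simp_all [sub, ups_comp]

theorem ups_var : ups (var : ℕ → Tm S) = var := by funext n; cases n <;> rfl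

theorem sub_var (M : Tm S) : sub var M = M := by
  induction M <;> simp_all [sub, ups_var]

theorem ups_ren_var (f : ℕ → ℕ) : ups (fun n => (var (f n) : Tm S)) = fun n => var (up f n) := by
  funext n; cases n <;> rfl

theorem ren_eq_sub (f : ℕ → ℕ) (M : Tm S) : ren f M = sub (fun n => var (f n)) M := by
  induction M generalizing f <;> simp_all [ren, sub, ups_ren_var]

theorem inst_sh (M N : Tm S) : inst (sh M) N = M := by
  simp only [inst, sh, sub_ren]
  exact sub_var M

theorem ren_inst (f : ℕ → ℕ) (M N : Tm S) :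
    ren f (inst M N) = inst (ren (up f) M) (ren f N) := by
  simp only [inst, ren_sub, sub_ren]
  apply sub_ext
  intro n; cases n <;> rfl

theorem sub_inst (σ : ℕ → Tm S) (M N : Tm S) :
    sub σ (inst M N) = inst (sub (ups σ) M) (sub σ N) := by
  simp only [inst, sub_sub]
  apply sub_ext
  intro n; cases n
  · rfl
  · simp [ups, single, sub]
    exact (inst_sh _ _).symm

/-- One step of beta-reduction, in any subexpression. -/
inductive Step : Tm S → Tm S → Prop where
  | beta (A M N : Tm S) : Step (app (lam A M) N) (inst M N)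
  | appL {M M' : Tm S} (N : Tm S) : Step M M' → Step (app M N) (app M' N)
  | appR (M : Tm S) {N N' : Tm S} : Step N N' → Step (app M N) (app M N')
  | lamA {A A' : Tm S} (M : Tm S) : Step A A' → Step (lam A M) (lam A' M)
  | lamM (A : Tm S) {M M' : Tm S} : Step M M' → Step (lam A M) (lam A M')
  | piA {A A' : Tm S} (B : Tm S) : Step A A' → Step (pi A B) (pi A' B)
  | piB (A : Tm S) {B B' : Tm S} : Step B B' → Step (pi A B) (pi A B')

/-- Beta-equality, the equivalence generated by `Step`. -/
def BetaEq : Tm S → Tm S → Prop := Relation.EqvGen Step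

/-- `N` is a beta-normal form. -/
def Normal (N : Tm S) : Prop := ∀ N', ¬ Step N N'

/-- `M` reduces to a beta-normal form. -/
def WNTm (M : Tm S) : Prop := ∃ N, Relation.ReflTransGen Step M N ∧ Normal N

/-- No infinite reduction sequence starts at `M`. -/
def SNTm (M : Tm S) : Prop := ¬ ∃ f : ℕ → Tm S, f 0 = M ∧ ∀ n, Step (f n) (f (n + 1))

theorem Step.ren {M M' : Tm S} (h : Step M M') (f : ℕ → ℕ) :
    Step (M.ren f) (M'.ren f) := by
  induction h generalizing f with
  | beta A M N => rw [ren_inst]; exact .beta _ _ _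
  | appL N _ ih => exact .appL _ (ih f)
  | appR M _ ih => exact .appR _ (ih f)
  | lamA M _ ih => exact .lamA _ (ih f)
  | lamM A _ ih => exact .lamM _ (ih (up f))
  | piA B _ ih => exact .piA _ (ih f)
  | piB A _ ih => exact .piB _ (ih (up f))

theorem Step.sub {M M' : Tm S} (h : Step M M') (σ : ℕ → Tm S) :
    Step (M.sub σ) (M'.sub σ) := by
  induction h generalizing σ with
  | beta A M N => rw [sub_inst]; exact .beta _ _ _
  | appL N _ ih => exact .appL _ (ih σ)
  | appR M _ ih => exact .appR _ (ih σ)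
  | lamA M _ ih => exact .lamA _ (ih σ)
  | lamM A _ ih => exact .lamM _ (ih (ups σ))
  | piA B _ ih => exact .piA _ (ih σ)
  | piB A _ ih => exact .piB _ (ih (ups σ))

end Tm

end Vale.Agent.P340
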