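import Vale.Agent.P340.SimSN
import Vale.Agent.P340.Confluence

namespace Vale.Agent.P340

open Tm

variable {S T : Type*}

/-- `MemoryMap P P' φ`: the map of sorts `φ` sends axioms of `P` to axioms of `P'`, and `P'`
has a memory sort `sO` with an inhabited judgment `Γ₀ ⊢ o : sO` such that: `(sO, s, _)` is a rule
for every sort `s`; every rule `(s₁, s₂, s₃)` of `P` can be doubled in `P'` through some `t, u`
as `(sO, φ s₁, t)`, `(t, φ s₂, u)`, `(φ s₁, u, φ s₃)`; and some set `Q` of sorts containing `sO`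
absorbs every sort, i.e. for `s` arbitrary and `q ∈ Q` there is a rule `(s, q, q')` with
`q' ∈ Q`. -/
def MemoryMap (P : Spec S) (P' : Spec T) (φ : S → T) : Prop :=
  (∀ s₁ s₂, P.ax s₁ s₂ → P'.ax (φ s₁) (φ s₂)) ∧
  ∃ (sO : T) (Γ₀ : List (Tm T)) (o : Tm T) (Q : T → Prop),
    Typ P' Γ₀ o (Tm.sort sO) ∧
    (∀ s, ∃ t, P'.rule sO s t) ∧
    (∀ s₁ s₂ s₃, P.rule s₁ s₂ s₃ →
      ∃ t u, P'.rule sO (φ s₁) t ∧ P'.rule t (φ s₂) u ∧ P'.rule (φ s₁) u (φ s₃)) ∧
    Q sO ∧ ∀ s q, Q q → ∃ q', Q q' ∧ P'.rule s q q'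

/-- The type of a thunk, in the context extended by the plain copy of its variable. -/
def thT (o a : Tm T) : Tm T := sh (Tm.pi o (sh a))

/-- Extend the map of variables under a doubled binder. -/
def upD (π : ℕ → Tm T) : ℕ → Tm T
  | 0 => Tm.var 1
  | n + 1 => sh (sh (π n))

/-- The plain translation: every binder is doubled, the second copy being a thunk. -/
def D (φ : S → T) : Tm T → (ℕ → Tm T) → Tm S → Tm T
  | _, π, .var n => π n
  | _, _, .sort s => .sort (φ s)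
  | o, π, .app M N => .app (.app (D φ o π M) (D φ o π N)) (.lam o (sh (D φ o π N)))
  | o, π, .lam A M =>
      .lam (D φ o π A) (.lam (thT o (D φ o π A)) (D φ (sh (sh o)) (upD π) M))
  | o, π, .pi A B =>
      .pi (D φ o π A) (.pi (thT o (D φ o π A)) (D φ (sh (sh o)) (upD π) B))

theorem ren_thT (g : ℕ → ℕ) (o a : Tm T) :
    Tm.ren (up g) (thT o a) = thT (Tm.ren g o) (Tm.ren g a) := by
  simp [thT, ren_sh, Tm.ren]

theorem sub_thT (τ : ℕ → Tm T) (o a : Tm T) :
    Tm.sub (ups τ) (thT o a) = thT (Tm.sub τ o) (Tm.sub τ a) := by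
  simp [thT, sub_sh, Tm.sub]

variable (φ : S → T)

theorem ren_D (M : Tm S) : ∀ (g : ℕ → ℕ) (o : Tm T) (π : ℕ → Tm T),
    Tm.ren g (D φ o π M) = D φ (Tm.ren g o) (Tm.ren g ∘ π) M := by
  have hup : ∀ (g : ℕ → ℕ) (π : ℕ → Tm T),
      Tm.ren (up (up g)) ∘ upD π = upD (Tm.ren g ∘ π) := by
    intro g π; funext n; cases n
    · rfl
    · simp [upD, ren_sh]
  induction M with
  | var n => intro g o π; rfl
  | sort s => intro g o π; rfl
  | app M N i1 i2 => intro g o π; simp [D, Tm.ren, i1, i2, ren_sh]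
  | lam M N i1 i2 => intro g o π; simp [D, Tm.ren, i1, i2, ren_thT, ren_sh, hup]
  | pi M N i1 i2 => intro g o π; simp [D, Tm.ren, i1, i2, ren_thT, ren_sh, hup]

theorem sub_D (M : Tm S) : ∀ (τ : ℕ → Tm T) (o : Tm T) (π : ℕ → Tm T),
    Tm.sub τ (D φ o π M) = D φ (Tm.sub τ o) (Tm.sub τ ∘ π) M := by
  have hup : ∀ (τ : ℕ → Tm T) (π : ℕ → Tm T),
      Tm.sub (ups (ups τ)) ∘ upD π = upD (Tm.sub τ ∘ π) := by
    intro g π; funext n; cases n
    · rfl
    · simp [upD, sub_sh]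
  induction M with
  | var n => intro g o π; rfl
  | sort s => intro g o π; rfl
  | app M N i1 i2 => intro g o π; simp [D, Tm.sub, i1, i2, sub_sh]
  | lam M N i1 i2 => intro g o π; simp [D, Tm.sub, i1, i2, sub_thT, sub_sh, hup]
  | pi M N i1 i2 => intro g o π; simp [D, Tm.sub, i1, i2, sub_thT, sub_sh, hup]

theorem D_ren (M : Tm S) : ∀ (f : ℕ → ℕ) (o : Tm T) (π : ℕ → Tm T),
    D φ o π (Tm.ren f M) = D φ o (π ∘ f) M := by
  have hup : ∀ (f : ℕ → ℕ) (π : ℕ → Tm T), upD π ∘ up f = upD (π ∘ f) := by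
    intro g π; funext n; cases n <;> rfl
  induction M with
  | var n => intro g o π; rfl
  | sort s => intro g o π; rfl
  | app M N i1 i2 => intro g o π; simp [D, Tm.ren, i1, i2]
  | lam M N i1 i2 => intro g o π; simp [D, Tm.ren, i1, i2, hup]
  | pi M N i1 i2 => intro g o π; simp [D, Tm.ren, i1, i2, hup]

theorem D_sub (M : Tm S) : ∀ (σ : ℕ → Tm S) (o : Tm T) (π : ℕ → Tm T),
    D φ o π (Tm.sub σ M) = D φ o (fun n => D φ o π (σ n)) M := by
  have hup : ∀ (σ : ℕ → Tm S) (o : Tm T) (π : ℕ → Tm T),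
      (fun n => D φ (sh (sh o)) (upD π) (ups σ n)) = upD (fun n => D φ o π (σ n)) := by
    intro σ o π; funext n; cases n
    · rfl
    · simp only [upD, ups, sh, ren_ren, D_ren, ren_D]
      congr 1
  induction M with
  | var n => intro g o π; rfl
  | sort s => intro g o π; rfl
  | app M N i1 i2 => intro g o π; simp [D, Tm.sub, i1, i2]
  | lam M N i1 i2 => intro g o π; simp [D, Tm.sub, i1, i2, hup]
  | pi M N i1 i2 => intro g o π; simp [D, Tm.sub, i1, i2, hup]

theorem D_inst (B N : Tm S) (o th : Tm T) (π : ℕ → Tm T) :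
    Tm.sub (pairSub (D φ o π N) th) (D φ (sh (sh o)) (upD π) B) = D φ o π (inst B N) := by
  have key : ∀ X : Tm T, Tm.sub (pairSub (D φ o π N) th) (sh (sh X)) = X := by
    intro X; simp only [sh, ren_ren, sub_ren]; exact sub_var X
  rw [inst, D_sub, sub_D, key]
  congr 1
  funext n; cases n
  · rfl
  · exact key _

/-- Congruence for application, function and argument. -/
theorem steps_app {M M' N N' : Tm T} (h : Relation.ReflTransGen Step M M')
    (h' : Relation.ReflTransGen Step N N') :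
    Relation.ReflTransGen Step (Tm.app M N) (Tm.app M' N') :=
  (h.lift (fun x => Tm.app x _) fun _ _ hh => Step.appL _ hh).trans
    (h'.lift (fun x => Tm.app _ x) fun _ _ hh => Step.appR _ hh)

theorem steps_lam {M M' N N' : Tm T} (h : Relation.ReflTransGen Step M M')
    (h' : Relation.ReflTransGen Step N N') :
    Relation.ReflTransGen Step (Tm.lam M N) (Tm.lam M' N') :=
  (h.lift (fun x => Tm.lam x _) fun _ _ hh => Step.lamA _ hh).trans
    (h'.lift (fun x => Tm.lam _ x) fun _ _ hh => Step.lamM _ hh)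

theorem steps_pi {M M' N N' : Tm T} (h : Relation.ReflTransGen Step M M')
    (h' : Relation.ReflTransGen Step N N') :
    Relation.ReflTransGen Step (Tm.pi M N) (Tm.pi M' N') :=
  (h.lift (fun x => Tm.pi x _) fun _ _ hh => Step.piA _ hh).trans
    (h'.lift (fun x => Tm.pi _ x) fun _ _ hh => Step.piB _ hh)

theorem steps_ren {M M' : Tm T} (h : Relation.ReflTransGen Step M M') (f : ℕ → ℕ) :
    Relation.ReflTransGen Step (Tm.ren f M) (Tm.ren f M') :=
  h.lift (Tm.ren f) fun _ _ hh => hh.ren f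

theorem D_step {M M' : Tm S} (h : Step M M') : ∀ (o : Tm T) (π : ℕ → Tm T),
    Relation.ReflTransGen Step (D φ o π M) (D φ o π M') := by
  induction h with
  | beta A M N =>
    intro o π
    rw [← D_inst φ M N o (Tm.lam o (sh (D φ o π N))) π, ← inst_inst]
    exact .tail (.single (.appL _ (.beta _ _ _))) (.beta _ _ _)
  | appL N _ ih => intro o π; exact steps_app (steps_app (ih o π) .refl) .refl
  | appR M _ ih =>
    intro o π
    exact steps_app (steps_app .refl (ih o π)) (steps_lam .refl (steps_ren (ih o π) _))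
  | lamA M _ ih =>
    intro o π
    exact steps_lam (ih o π)
      (steps_lam (steps_ren (steps_pi .refl (steps_ren (ih o π) _)) _) .refl)
  | lamM A _ ih => intro o π; exact steps_lam .refl (steps_lam .refl (ih _ _))
  | piA B _ ih =>
    intro o π
    exact steps_pi (ih o π)
      (steps_pi (steps_ren (steps_pi .refl (steps_ren (ih o π) _)) _) .refl)
  | piB A _ ih => intro o π; exact steps_pi .refl (steps_pi .refl (ih _ _))

theorem D_betaEq {M M' : Tm S} (h : BetaEq M M') (o : Tm T) (π : ℕ → Tm T) :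
    BetaEq (D φ o π M) (D φ o π M') := by
  induction h with
  | rel x y h => exact steps_betaEq (D_step φ h o π)
  | refl x => exact .refl _
  | symm x y _ ih => exact .symm _ _ ih
  | trans x y z _ _ i1 i2 => exact .trans _ _ _ i1 i2

/-- The memory type at a given depth. -/
def od (o : Tm T) : ℕ → Tm T
  | 0 => o
  | d + 1 => sh (sh (od o d))

/-- The map of variables at a given depth. -/
def pd (o : Tm T) : ℕ → ℕ → Tm T
  | 0 => fun _ => o
  | d + 1 => upD (pd o d)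

/-- The plain translation of an expression in a context. -/
def Dc (o : Tm T) (Γ : List (Tm S)) (M : Tm S) : Tm T :=
  D φ (od o Γ.length) (pd o Γ.length) M

/-- The translated context. -/
def dE (o : Tm T) : List (Tm S) → List (Tm T)
  | [] => []
  | A :: Γ => thT (od o Γ.length) (Dc φ o Γ A) :: Dc φ o Γ A :: dE o Γ

theorem Dc_sh (o : Tm T) (A : Tm S) (Γ : List (Tm S)) (M : Tm S) :
    Dc φ o (A :: Γ) (sh M) = sh (sh (Dc φ o Γ M)) := by
  simp only [Dc, List.length_cons, od, pd, sh, D_ren, ren_ren, ren_D]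
  congr 1

theorem Dc_sort (o : Tm T) (Γ : List (Tm S)) (s : S) :
    Dc φ o Γ (Tm.sort s) = Tm.sort (φ s) := rfl

variable {φ} {P : Spec S} {P' : Spec T}

theorem sh_pi_sh (o a : Tm T) : sh (Tm.pi o (sh a)) = Tm.pi (sh o) (sh (sh a)) := by
  simp [sh, Tm.ren, ren_ren]; rfl

/-- The type `O → a` is typed. -/
theorem Typ.arrow {Γ : List (Tm T)} {o a : Tm T} {sO s t : T} (ho : Typ P' Γ o (Tm.sort sO))
    (ha : Typ P' Γ a (Tm.sort s)) (hr : P'.rule sO s t) :
    Typ P' Γ (Tm.pi o (sh a)) (Tm.sort t) :=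
  .prod ho (.weak ha ho) hr

theorem od_typ {Δ : List (Tm T)} {o : Tm T} {sO : T} (ho : Typ P' Δ o (Tm.sort sO))
    (Γ : List (Tm S)) (hw : Wf P' (dE φ o Γ ++ Δ)) :
    Typ P' (dE φ o Γ ++ Δ) (od o Γ.length) (Tm.sort sO) := by
  induction Γ with
  | nil => exact ho
  | cons A Γ ih =>
    cases hw with
    | cons hw1 hth =>
      cases hw1 with
      | cons hw2 hA => exact .weak (.weak (ih hw2) hA) hth

theorem dE_cons_wf {Δ : List (Tm T)} {o : Tm T} {sO : T} (ho : Typ P' Δ o (Tm.sort sO))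
    {Γ : List (Tm S)} {A : Tm S} {s t : T}
    (hA : Typ P' (dE φ o Γ ++ Δ) (Dc φ o Γ A) (Tm.sort s)) (hr : P'.rule sO s t) :
    Typ P' (Dc φ o Γ A :: (dE φ o Γ ++ Δ)) (thT (od o Γ.length) (Dc φ o Γ A)) (Tm.sort t) :=
  .weak ((od_typ ho Γ hA.wf).arrow hA hr) hA

theorem inst_thT (o a d : Tm T) : inst (thT o a) d = Tm.pi o (sh a) := inst_sh _ _

/-- Application of a doubled function. -/
theorem Typ.appPair {Γ : List (Tm T)} {F d th o a b : Tm T}
    (hF : Typ P' Γ F (Tm.pi a (Tm.pi (thT o a) b))) (hd : Typ P' Γ d a)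
    (hth : Typ P' Γ th (Tm.pi o (sh a))) :
    Typ P' Γ (Tm.app (Tm.app F d) th) (Tm.sub (pairSub d th) b) := by
  have h1 := Typ.appl hF hd
  have h2 : inst (Tm.pi (thT o a) b) d = Tm.pi (Tm.pi o (sh a)) (Tm.sub (ups (single d)) b) := by
    rw [inst, Tm.sub]; congr 1; exact inst_thT o a d
  rw [h2] at h1
  have h3 := Typ.appl h1 hth
  rwa [inst_inst] at h3

theorem Typ.thunk {Γ : List (Tm T)} {o a b : Tm T} {sO s t : T}
    (ho : Typ P' Γ o (Tm.sort sO)) (ha : Typ P' Γ a (Tm.sort s)) (hr : P'.rule sO s t)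
    (hb : Typ P' (o :: Γ) b (sh a)) : Typ P' Γ (Tm.lam o b) (Tm.pi o (sh a)) :=
  .abst hb (ho.arrow ha hr)

/-- The plain translation preserves typing. -/
theorem D_typ {sO : T} (hax : ∀ s₁ s₂, P.ax s₁ s₂ → P'.ax (φ s₁) (φ s₂))
    (hthk : ∀ s, ∃ t, P'.rule sO s t)
    (hdbl : ∀ s₁ s₂ s₃, P.rule s₁ s₂ s₃ →
      ∃ t u, P'.rule sO (φ s₁) t ∧ P'.rule t (φ s₂) u ∧ P'.rule (φ s₁) u (φ s₃))
    {Δ : List (Tm T)} {o : Tm T} (ho : Typ P' Δ o (Tm.sort sO))
    {Γ : List (Tm S)} {M B : Tm S} (h : Typ P Γ M B) :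
    Typ P' (dE φ o Γ ++ Δ) (Dc φ o Γ M) (Dc φ o Γ B) := by
  induction h with
  | sortAx h => exact ho.wf.axTyp (hax _ _ h)
  | @start Γ A s _ ih =>
    obtain ⟨t, ht⟩ := hthk (φ s)
    have h := Typ.weak (Typ.start (A := Dc φ o Γ A) ih) (dE_cons_wf ho ih ht)
    rw [Dc_sh]
    exact h
  | @weak Γ M B A s _ _ ih ihA =>
    obtain ⟨t, ht⟩ := hthk (φ s)
    rw [Dc_sh, Dc_sh]
    exact .weak (.weak ih ihA) (dE_cons_wf ho ihA ht)
  | @prod Γ A B s₁ s₂ s₃ _ _ hr ihA ihB =>
    obtain ⟨t, u, h1, h2, h3⟩ := hdbl _ _ _ hr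
    exact .prod ihA (.prod (dE_cons_wf ho ihA h1) ihB h2) h3
  | @abst Γ A M B s _ _ ihM ihP =>
    obtain ⟨s₁, s₂, _, hin⟩ := ihP.genPi
    exact .abst (.abst ihM hin) ihP
  | @appl Γ M N A B _ _ ihM ihN =>
    obtain ⟨s₁, s₂, hA, _⟩ := ihM.typeOfPi
    obtain ⟨t, ht⟩ := hthk s₁
    have hod := od_typ ho Γ hA.wf
    have := ihM.appPair ihN (hod.thunk hA ht (Typ.weak ihN hod))
    have e := D_inst φ B N (od o Γ.length)
      (Tm.lam (od o Γ.length) (sh (Dc φ o Γ N))) (pd o Γ.length)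
    simp only [Dc, List.length_cons, od, pd] at this e ⊢
    rw [e] at this
    exact this
  | conv _ _ he ihM ihB => exact .conv ihM ihB (D_betaEq φ he _ _)

end Vale.Agent.P340
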