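import Vale.Agent.P340.Syntax

namespace Vale.Agent.P340

/-- A pure type specification: axioms and rules over a set `S` of sorts. -/
structure Spec (S : Type*) where
  ax : S → S → Prop
  rule : S → S → S → Prop

open Tm

variable {S : Type*}

/-- The typing judgment of the pure type system `P`; the head of the list is the last variable. -/
inductive Typ (P : Spec S) : List (Tm S) → Tm S → Tm S → Prop where
  | sortAx {s₁ s₂ : S} : P.ax s₁ s₂ → Typ P [] (sort s₁) (sort s₂)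
  | start {Γ : List (Tm S)} {A : Tm S} {s : S} :
      Typ P Γ A (sort s) → Typ P (A :: Γ) (var 0) (sh A)
  | weak {Γ : List (Tm S)} {M B A : Tm S} {s : S} :
      Typ P Γ M B → Typ P Γ A (sort s) → Typ P (A :: Γ) (sh M) (sh B)
  | prod {Γ : List (Tm S)} {A B : Tm S} {s₁ s₂ s₃ : S} :
      Typ P Γ A (sort s₁) → Typ P (A :: Γ) B (sort s₂) → P.rule s₁ s₂ s₃ →
      Typ P Γ (pi A B) (sort s₃)
  | abst {Γ : List (Tm S)} {A M B : Tm S} {s : S} :
      Typ P (A :: Γ) M B → Typ P Γ (pi A B) (sort s) → Typ P Γ (lam A M) (pi A B)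
  | appl {Γ : List (Tm S)} {M N A B : Tm S} :
      Typ P Γ M (pi A B) → Typ P Γ N A → Typ P Γ (app M N) (inst B N)
  | conv {Γ : List (Tm S)} {M A B : Tm S} {s : S} :
      Typ P Γ M A → Typ P Γ B (sort s) → BetaEq A B → Typ P Γ M B

/-- An expression is legal if it is the subject or the type of a derivable judgment. -/
def Legal (P : Spec S) (M : Tm S) : Prop := ∃ Γ B, Typ P Γ M B ∨ Typ P Γ B M

/-- Every legal expression reduces to a normal form. -/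
def WeaklyNormalizing (P : Spec S) : Prop := ∀ M, Legal P M → WNTm M

/-- No legal expression starts an infinite reduction sequence. -/
def StronglyNormalizing (P : Spec S) : Prop := ∀ M, Legal P M → SNTm M

/-- `Look Γ i T`: variable `i` is declared in `Γ` with type `T`. -/
inductive Look : List (Tm S) → ℕ → Tm S → Prop where
  | zero (A : Tm S) (Γ : List (Tm S)) : Look (A :: Γ) 0 (sh A)
  | succ (A : Tm S) {Γ : List (Tm S)} {i : ℕ} {T : Tm S} :
      Look Γ i T → Look (A :: Γ) (i + 1) (sh T)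

/-- Well-formed contexts. -/
inductive Wf (P : Spec S) : List (Tm S) → Prop where
  | nil : Wf P []
  | cons {Γ : List (Tm S)} {A : Tm S} {s : S} :
      Wf P Γ → Typ P Γ A (sort s) → Wf P (A :: Γ)

variable {P : Spec S}

theorem Typ.wf {Γ : List (Tm S)} {M B : Tm S} (h : Typ P Γ M B) : Wf P Γ := by
  induction h with
  | sortAx _ => exact .nil
  | start h ih => exact .cons ih h
  | weak _ h _ ih => exact .cons ih h
  | prod _ _ _ ih _ => exact ih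
  | abst _ _ _ ih => exact ih
  | appl _ _ ih _ => exact ih
  | conv _ _ _ ih _ => exact ih

theorem Wf.axTyp {Γ : List (Tm S)} (hΓ : Wf P Γ) {a b : S} (h : P.ax a b) :
    Typ P Γ (sort a) (sort b) := by
  induction hΓ with
  | nil => exact .sortAx h
  | cons _ hA ih => exact .weak ih hA

theorem Wf.varTyp {Γ : List (Tm S)} (hΓ : Wf P Γ) {i : ℕ} {T : Tm S} (h : Look Γ i T) :
    Typ P Γ (var i) T := by
  induction h with
  | zero A Γ => cases hΓ with | cons _ hA => exact .start hA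
  | succ A _ ih => cases hΓ with | cons hΓ hA => exact .weak (ih hΓ) hA

/-- A renaming respecting types. -/
def RenTy (f : ℕ → ℕ) (Γ Δ : List (Tm S)) : Prop :=
  ∀ i T, Look Γ i T → Look Δ (f i) (ren f T)

theorem RenTy.up {f : ℕ → ℕ} {Γ Δ : List (Tm S)} (h : RenTy f Γ Δ) (A : Tm S) :
    RenTy (Tm.up f) (A :: Γ) (ren f A :: Δ) := by
  intro i T hi
  cases hi with
  | zero => rw [ren_sh]; exact .zero _ _
  | succ _ hi => rw [ren_sh]; exact .succ _ (h _ _ hi)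

theorem RenTy.succ (A : Tm S) (Γ : List (Tm S)) : RenTy Nat.succ Γ (A :: Γ) :=
  fun _ _ h => .succ A h

theorem RenTy.comp {f g : ℕ → ℕ} {Γ Δ E : List (Tm S)} (h : RenTy f Γ Δ) (h' : RenTy g Δ E) :
    RenTy (g ∘ f) Γ E := by
  intro i T hi
  rw [← ren_ren]; exact h' _ _ (h _ _ hi)

theorem Tm.BetaEq.ren {A B : Tm S} (he : BetaEq A B) (f : ℕ → ℕ) :
    BetaEq (Tm.ren f A) (Tm.ren f B) := by
  induction he with
  | rel x y h => exact .rel _ _ (h.ren f)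
  | refl x => exact .refl _
  | symm x y _ ih => exact .symm _ _ ih
  | trans x y z _ _ ih1 ih2 => exact .trans _ _ _ ih1 ih2

theorem Tm.BetaEq.sub {A B : Tm S} (he : BetaEq A B) (σ : ℕ → Tm S) :
    BetaEq (Tm.sub σ A) (Tm.sub σ B) := by
  induction he with
  | rel x y h => exact .rel _ _ (h.sub σ)
  | refl x => exact .refl _
  | symm x y _ ih => exact .symm _ _ ih
  | trans x y z _ _ ih1 ih2 => exact .trans _ _ _ ih1 ih2

/-- Auxiliary motive for renaming: the judgment itself can be renamed. -/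
def CanRen (P : Spec S) (Γ : List (Tm S)) (M B : Tm S) : Prop :=
  ∀ ⦃Δ : List (Tm S)⦄ ⦃f : ℕ → ℕ⦄, Wf P Δ → RenTy f Γ Δ → Typ P Δ (Tm.ren f M) (Tm.ren f B)

/-- Auxiliary motive for renaming: so can the typing of the last declaration. -/
def HeadRen (P : Spec S) : List (Tm S) → Prop
  | [] => True
  | A :: Γ => ∃ s, CanRen P Γ A (sort s)

theorem Typ.renameAux {Γ : List (Tm S)} {M B : Tm S} (h : Typ P Γ M B) :
    CanRen P Γ M B ∧ HeadRen P Γ := by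
  induction h with
  | sortAx h => exact ⟨fun Δ f hΔ _ => hΔ.axTyp h, trivial⟩
  | start _ ih => exact ⟨fun Δ f hΔ hf => hΔ.varTyp (hf _ _ (.zero _ _)), _, ih.1⟩
  | weak _ _ ih ihA =>
    refine ⟨fun Δ f hΔ hf => ?_, _, ihA.1⟩
    simp only [sh, ren_ren]
    exact ih.1 hΔ ((RenTy.succ _ _).comp hf)
  | prod _ _ hr ihA ihB =>
    exact ⟨fun Δ f hΔ hf =>
      .prod (ihA.1 hΔ hf) (ihB.1 (.cons hΔ (ihA.1 hΔ hf)) (hf.up _)) hr, ihA.2⟩
  | abst _ _ ihM ihP =>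
    obtain ⟨s', hA⟩ := ihM.2
    exact ⟨fun Δ f hΔ hf =>
      .abst (ihM.1 (.cons hΔ (hA hΔ hf)) (hf.up _)) (ihP.1 hΔ hf), ihP.2⟩
  | appl _ _ ihM ihN =>
    refine ⟨fun Δ f hΔ hf => ?_, ihN.2⟩
    rw [ren_inst]
    exact .appl (ihM.1 hΔ hf) (ihN.1 hΔ hf)
  | conv _ _ he ihM ihB =>
    exact ⟨fun Δ f hΔ hf => .conv (ihM.1 hΔ hf) (ihB.1 hΔ hf) (he.ren f), ihM.2⟩

theorem Typ.rename {Γ Δ : List (Tm S)} {f : ℕ → ℕ} {M B : Tm S} (h : Typ P Γ M B)
    (hΔ : Wf P Δ) (hf : RenTy f Γ Δ) : Typ P Δ (Tm.ren f M) (Tm.ren f B) :=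
  h.renameAux.1 hΔ hf

/-- A substitution respecting types. -/
def SubTy (P : Spec S) (σ : ℕ → Tm S) (Γ Δ : List (Tm S)) : Prop :=
  ∀ i T, Look Γ i T → Typ P Δ (σ i) (Tm.sub σ T)

theorem SubTy.up {σ : ℕ → Tm S} {Γ Δ : List (Tm S)} (h : SubTy P σ Γ Δ) {A : Tm S} {s : S}
    (hΔ : Wf P Δ) (hA : Typ P Δ (Tm.sub σ A) (sort s)) :
    SubTy P (ups σ) (A :: Γ) (Tm.sub σ A :: Δ) := by
  intro i T hi
  cases hi with
  | zero => rw [sub_sh]; exact .start hA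
  | succ _ hi => rw [sub_sh]; exact .weak (h _ _ hi) hA

theorem sub_comp_succ (σ : ℕ → Tm S) (M : Tm S) :
    Tm.sub σ (sh M) = Tm.sub (σ ∘ Nat.succ) M := sub_ren _ _ _

/-- Auxiliary motive for substitution. -/
def CanSub (P : Spec S) (Γ : List (Tm S)) (M B : Tm S) : Prop :=
  ∀ ⦃Δ : List (Tm S)⦄ ⦃σ : ℕ → Tm S⦄, Wf P Δ → SubTy P σ Γ Δ →
    Typ P Δ (Tm.sub σ M) (Tm.sub σ B)

/-- Auxiliary motive for substitution. -/
def HeadSub (P : Spec S) : List (Tm S) → Prop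
  | [] => True
  | A :: Γ => ∃ s, CanSub P Γ A (sort s)

theorem Typ.substAux {Γ : List (Tm S)} {M B : Tm S} (h : Typ P Γ M B) :
    CanSub P Γ M B ∧ HeadSub P Γ := by
  induction h with
  | sortAx h => exact ⟨fun Δ σ hΔ _ => hΔ.axTyp h, trivial⟩
  | start _ ih => exact ⟨fun Δ σ hΔ hσ => hσ _ _ (.zero _ _), _, ih.1⟩
  | weak _ _ ih ihA =>
    refine ⟨fun Δ σ hΔ hσ => ?_, _, ihA.1⟩
    rw [sub_comp_succ, sub_comp_succ]
    exact ih.1 hΔ fun i T hi => by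
      rw [← sub_comp_succ]; exact hσ _ _ (.succ _ hi)
  | prod _ _ hr ihA ihB =>
    exact ⟨fun Δ σ hΔ hσ =>
      .prod (ihA.1 hΔ hσ) (ihB.1 (.cons hΔ (ihA.1 hΔ hσ)) (hσ.up hΔ (ihA.1 hΔ hσ))) hr, ihA.2⟩
  | abst _ _ ihM ihP =>
    obtain ⟨s', hA⟩ := ihM.2
    exact ⟨fun Δ σ hΔ hσ =>
      .abst (ihM.1 (.cons hΔ (hA hΔ hσ)) (hσ.up hΔ (hA hΔ hσ))) (ihP.1 hΔ hσ), ihP.2⟩
  | appl _ _ ihM ihN =>
    refine ⟨fun Δ σ hΔ hσ => ?_, ihN.2⟩
    rw [sub_inst]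
    exact .appl (ihM.1 hΔ hσ) (ihN.1 hΔ hσ)
  | conv _ _ he ihM ihB =>
    exact ⟨fun Δ σ hΔ hσ => .conv (ihM.1 hΔ hσ) (ihB.1 hΔ hσ) (he.sub σ), ihM.2⟩

theorem Typ.subst {Γ Δ : List (Tm S)} {σ : ℕ → Tm S} {M B : Tm S} (h : Typ P Γ M B)
    (hΔ : Wf P Δ) (hσ : SubTy P σ Γ Δ) : Typ P Δ (Tm.sub σ M) (Tm.sub σ B) :=
  h.substAux.1 hΔ hσ

theorem Typ.inst0 {Γ : List (Tm S)} {M B A N : Tm S} (h : Typ P (A :: Γ) M B)
    (hN : Typ P Γ N A) : Typ P Γ (inst M N) (inst B N) := by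
  refine h.subst hN.wf ?_
  intro i T hi
  cases hi with
  | zero => rw [show Tm.sub (single N) (sh A) = A from inst_sh A N]; exact hN
  | @succ _ _ j T hi =>
    rw [show Tm.sub (single N) (sh T) = T from inst_sh T N]
    exact hN.wf.varTyp hi

theorem Wf.shift {Γ : List (Tm S)} {A M B : Tm S} (hΓ : Wf P (A :: Γ)) (h : Typ P Γ M B) :
    Typ P (A :: Γ) (sh M) (sh B) := by
  cases hΓ with | cons _ hA => exact .weak h hA

/-- Generation for products. -/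
theorem Typ.genPi {Γ : List (Tm S)} {A B T : Tm S} (h : Typ P Γ (pi A B) T) :
    ∃ s₁ s₂, Typ P Γ A (sort s₁) ∧ Typ P (A :: Γ) B (sort s₂) := by
  generalize hX : pi A B = X at h
  induction h generalizing A B with
  | sortAx _ => cases hX
  | start _ _ => cases hX
  | @weak Γ M B' A' s hM hA ih _ =>
    cases M <;> simp [sh, Tm.ren] at hX
    obtain ⟨rfl, rfl⟩ := hX
    obtain ⟨s₁, s₂, h1, h2⟩ := ih rfl
    have h1' := Typ.weak h1 hA
    exact ⟨s₁, s₂, h1', h2.rename (.cons h1'.wf h1') ((RenTy.succ A' Γ).up _)⟩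
  | prod hA hB _ => cases hX; exact ⟨_, _, hA, hB⟩
  | abst _ _ _ _ => cases hX
  | appl _ _ _ _ => cases hX
  | conv _ _ _ ih _ => exact ih hX

/-- Correctness of types. -/
theorem Typ.validity {Γ : List (Tm S)} {M B : Tm S} (h : Typ P Γ M B) :
    (∃ s, B = sort s) ∨ ∃ s, Typ P Γ B (sort s) := by
  induction h with
  | @sortAx s₁ s₂ _ => exact .inl ⟨s₂, rfl⟩
  | start hA => exact .inr ⟨_, .weak hA hA⟩
  | weak _ hA ih =>
    rcases ih with ⟨s, rfl⟩ | ⟨s, hs⟩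
    · exact .inl ⟨s, rfl⟩
    · exact .inr ⟨s, .weak hs hA⟩
  | @prod Γ A B s₁ s₂ s₃ _ _ _ => exact .inl ⟨s₃, rfl⟩
  | abst _ hP => exact .inr ⟨_, hP⟩
  | appl _ hN ihM =>
    rcases ihM with ⟨s, hs⟩ | ⟨s, hs⟩
    · cases hs
    · obtain ⟨s₁, s₂, _, hB⟩ := hs.genPi
      exact .inr ⟨s₂, hB.inst0 hN⟩
  | conv _ hB _ => exact .inr ⟨_, hB⟩

theorem Typ.typeOfPi {Γ : List (Tm S)} {M A B : Tm S} (h : Typ P Γ M (pi A B)) :
    ∃ s₁ s₂, Typ P Γ A (sort s₁) ∧ Typ P (A :: Γ) B (sort s₂) := by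
  rcases h.validity with ⟨s, hs⟩ | ⟨s, hs⟩
  · cases hs
  · exact hs.genPi

end Vale.Agent.P340
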